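import Vale.Agent.Lib.P318.Defs

namespace Vale.Agent.Lib.P318

open Finset

variable {n : ℕ}

theorem pairSum_eq_half (w : Fin n → Fin n → ℝ) (hs : ∀ i j, w i j = w j i)
    (h0 : ∀ i, w i i = 0) : 2 * pairSum w = ∑ i, ∑ j, w i j := by
  have h1 : ∑ i, ∑ j, w i j
      = ∑ i, ∑ j, ((if i < j then w i j else 0) + (if j < i then w i j else 0)) := by
    apply Finset.sum_congr rfl; intro i _
    apply Finset.sum_congr rfl; intro j _
    rcases lt_trichotomy i j with h | h | h
    · simp [h, not_lt.2 h.le]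
    · subst h; simp [h0]
    · simp [h, not_lt.2 h.le]
  have h2 : ∑ i, ∑ j, (if j < i then w i j else 0) = pairSum w := by
    unfold pairSum
    rw [Finset.sum_comm]
    apply Finset.sum_congr rfl; intro i _
    apply Finset.sum_congr rfl; intro j _
    rw [hs j i]
  rw [h1]
  simp only [Finset.sum_add_distrib]
  rw [h2]
  unfold pairSum
  ring

theorem IsNegTypeSemimetric.symm {d : Fin n → Fin n → ℝ} (h : IsNegTypeSemimetric d) (i j) :
    d i j = d j i := by
  obtain ⟨⟨x, hx⟩, _⟩ := h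
  rw [hx, hx, norm_sub_rev]

theorem IsNegTypeSemimetric.diag {d : Fin n → Fin n → ℝ} (h : IsNegTypeSemimetric d) (i) :
    d i i = 0 := by
  obtain ⟨⟨x, hx⟩, _⟩ := h
  rw [hx]; simp

theorem IsNegTypeSemimetric.nonneg {d : Fin n → Fin n → ℝ} (h : IsNegTypeSemimetric d) (i j) :
    0 ≤ d i j := by
  obtain ⟨⟨x, hx⟩, _⟩ := h
  rw [hx]; positivity

theorem pairSum_nonneg {w : Fin n → Fin n → ℝ} (h : ∀ i j, 0 ≤ w i j) : 0 ≤ pairSum w := by
  unfold pairSum
  apply Finset.sum_nonneg; intro i _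
  apply Finset.sum_nonneg; intro j _
  split_ifs
  · exact h i j
  · exact le_refl _

theorem pairSum_smul (a : ℝ) (w : Fin n → Fin n → ℝ) :
    pairSum (fun i j => a * w i j) = a * pairSum w := by
  unfold pairSum
  rw [Finset.mul_sum]
  apply Finset.sum_congr rfl; intro i _
  rw [Finset.mul_sum]
  apply Finset.sum_congr rfl; intro j _
  split_ifs <;> simp

theorem IsNegTypeSemimetric.scale {d : Fin n → Fin n → ℝ} (hd : IsNegTypeSemimetric d) {a : ℝ}
    (ha : 0 ≤ a) : IsNegTypeSemimetric (fun i j => a * d i j) := by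
  constructor
  · obtain ⟨⟨x, hx⟩, _⟩ := hd
    refine ⟨fun i => (Real.sqrt a) • x i, ?_⟩
    intro i j
    show a * d i j = _
    rw [← smul_sub, norm_smul, mul_pow, hx i j]
    congr 1
    rw [Real.norm_eq_abs, sq_abs, Real.sq_sqrt ha]
  · intro i j k
    have := hd.2 i j k
    show a * d i k ≤ a * d i j + a * d j k
    nlinarith

theorem card_lt_of_ne_univ {S : Finset (Fin n)} (h2 : S ≠ Finset.univ) : S.card < n := by
  have h1 : S.card ≤ n := by simpa using Finset.card_le_univ S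
  refine lt_of_le_of_ne h1 ?_
  intro h
  apply h2
  apply (Finset.card_eq_iff_eq_univ S).1
  simpa using h

/-- the set defining `GL` is bounded below by `0`. -/
theorem glValue_bddBelow {c : Fin n → Fin n → ℝ} (hc : IsCapacity c) :
    BddBelow {v : ℝ | ∃ d : Fin n → Fin n → ℝ, IsNegTypeSemimetric d ∧ pairSum d = 1 ∧
      v = pairSum (fun i j => c i j * d i j)} := by
  refine ⟨0, ?_⟩
  rintro v ⟨d, hd, _, rfl⟩
  exact pairSum_nonneg (fun i j => mul_nonneg (hc.2.1 i j) (hd.nonneg i j))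

/-- scaling: any negative-type semimetric with positive total gives an upper bound for `GL`. -/
theorem glValue_le_of_negType {c : Fin n → Fin n → ℝ} (hc : IsCapacity c)
    {d : Fin n → Fin n → ℝ} (hd : IsNegTypeSemimetric d) (hpos : 0 < pairSum d) :
    glValue c ≤ pairSum (fun i j => c i j * d i j) / pairSum d := by
  apply csInf_le (glValue_bddBelow hc)
  set s := pairSum d with hs
  refine ⟨fun i j => s⁻¹ * d i j, hd.scale (inv_nonneg.2 hpos.le), ?_, ?_⟩
  · rw [pairSum_smul, ← hs]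
    exact inv_mul_cancel₀ hpos.ne'
  · have : (fun i j => c i j * (s⁻¹ * d i j)) = fun i j => s⁻¹ * (c i j * d i j) := by
      funext i j; ring
    rw [this, pairSum_smul]
    field_simp

theorem le_glValue {c : Fin n → Fin n → ℝ} {r : ℝ}
    (hne : ∃ d : Fin n → Fin n → ℝ, IsNegTypeSemimetric d ∧ pairSum d = 1)
    (h : ∀ d : Fin n → Fin n → ℝ, IsNegTypeSemimetric d → pairSum d = 1 →
      r ≤ pairSum (fun i j => c i j * d i j)) : r ≤ glValue c := by
  apply le_csInf
  · obtain ⟨d, hd, h1⟩ := hne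
    exact ⟨_, d, hd, h1, rfl⟩
  · rintro v ⟨d, hd, h1, rfl⟩
    exact h d hd h1

theorem cutRatio_nonneg {c : Fin n → Fin n → ℝ} (hc : IsCapacity c) (S : Finset (Fin n)) :
    0 ≤ cutRatio c S := by
  unfold cutRatio
  apply div_nonneg
  · apply Finset.sum_nonneg; intro i _
    apply Finset.sum_nonneg; intro j _
    exact hc.2.1 i j
  · apply mul_nonneg (Nat.cast_nonneg _)
    have : S.card ≤ n := by simpa using Finset.card_le_univ S
    have : (S.card : ℝ) ≤ n := by exact_mod_cast this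
    linarith

theorem sparsestCut_bddBelow {c : Fin n → Fin n → ℝ} (hc : IsCapacity c) :
    BddBelow {r : ℝ | ∃ S : Finset (Fin n), S.Nonempty ∧ S ≠ Finset.univ ∧ r = cutRatio c S} := by
  refine ⟨0, ?_⟩
  rintro r ⟨S, _, _, rfl⟩
  exact cutRatio_nonneg hc S

theorem sparsestCut_le {c : Fin n → Fin n → ℝ} (hc : IsCapacity c) {S : Finset (Fin n)}
    (h1 : S.Nonempty) (h2 : S ≠ Finset.univ) : sparsestCut c ≤ cutRatio c S :=
  csInf_le (sparsestCut_bddBelow hc) ⟨S, h1, h2, rfl⟩

theorem le_sparsestCut {c : Fin n → Fin n → ℝ} {r : ℝ}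
    (hne : ∃ S : Finset (Fin n), S.Nonempty ∧ S ≠ Finset.univ)
    (h : ∀ S : Finset (Fin n), S.Nonempty → S ≠ Finset.univ → r ≤ cutRatio c S) :
    r ≤ sparsestCut c := by
  apply le_csInf
  · obtain ⟨S, h1, h2⟩ := hne
    exact ⟨_, S, h1, h2, rfl⟩
  · rintro v ⟨S, h1, h2, rfl⟩
    exact h S h1 h2

theorem exists_proper (hn : 2 ≤ n) : ∃ S : Finset (Fin n), S.Nonempty ∧ S ≠ Finset.univ := by
  refine ⟨{⟨0, by omega⟩}, Finset.singleton_nonempty _, ?_⟩
  intro h
  have := congrArg Finset.card h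
  simp at this
  omega

theorem sparsestCut_nonneg {c : Fin n → Fin n → ℝ} (hc : IsCapacity c) (hn : 2 ≤ n) :
    0 ≤ sparsestCut c :=
  le_sparsestCut (exists_proper hn) (fun S _ _ => cutRatio_nonneg hc S)

/-- The cut semimetric of `S`. -/
noncomputable def cutMetric (S : Finset (Fin n)) (i j : Fin n) : ℝ :=
  if (i ∈ S) = (j ∈ S) then 0 else 1

theorem cutMetric_negType (hn : 0 < n) (S : Finset (Fin n)) :
    IsNegTypeSemimetric (cutMetric S) := by
  constructor
  · refine ⟨fun i => if i ∈ S then EuclideanSpace.single ⟨0, hn⟩ 1 else 0, ?_⟩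
    intro i j
    unfold cutMetric
    by_cases hi : i ∈ S <;> by_cases hj : j ∈ S <;> simp [hi, hj]
  · intro i j k
    unfold cutMetric
    by_cases hi : i ∈ S <;> by_cases hj : j ∈ S <;> by_cases hk : k ∈ S <;> simp [hi, hj, hk]

theorem sum_cutMetric (w : Fin n → Fin n → ℝ) (hs : ∀ i j, w i j = w j i) (S : Finset (Fin n)) :
    ∑ i, ∑ j, w i j * cutMetric S i j = 2 * ∑ i ∈ S, ∑ j ∈ Sᶜ, w i j := by
  have h1 : ∀ i, ∑ j, w i j * cutMetric S i j
      = if i ∈ S then ∑ j ∈ Sᶜ, w i j else ∑ j ∈ S, w i j := by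
    intro i
    by_cases hi : i ∈ S
    · simp only [hi, if_true]
      rw [← Finset.sum_add_sum_compl S]
      have e1 : ∑ j ∈ S, w i j * cutMetric S i j = 0 := by
        apply Finset.sum_eq_zero; intro j hj; simp [cutMetric, hi, hj]
      have e2 : ∑ j ∈ Sᶜ, w i j * cutMetric S i j = ∑ j ∈ Sᶜ, w i j := by
        apply Finset.sum_congr rfl; intro j hj
        have hj' : j ∉ S := Finset.mem_compl.1 hj
        simp [cutMetric, hi, hj']
      rw [e1, e2, zero_add]
    · simp only [hi, if_false]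
      rw [← Finset.sum_add_sum_compl S]
      have e1 : ∑ j ∈ S, w i j * cutMetric S i j = ∑ j ∈ S, w i j := by
        apply Finset.sum_congr rfl; intro j hj; simp [cutMetric, hi, hj]
      have e2 : ∑ j ∈ Sᶜ, w i j * cutMetric S i j = 0 := by
        apply Finset.sum_eq_zero; intro j hj
        have hj' : j ∉ S := Finset.mem_compl.1 hj
        simp [cutMetric, hi, hj']
      rw [e1, e2, add_zero]
  simp only [h1]
  rw [← Finset.sum_add_sum_compl S]
  have e1 : ∑ i ∈ S, (if i ∈ S then ∑ j ∈ Sᶜ, w i j else ∑ j ∈ S, w i j)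
      = ∑ i ∈ S, ∑ j ∈ Sᶜ, w i j := by
    apply Finset.sum_congr rfl; intro i hi; simp [hi]
  have e2 : ∑ i ∈ Sᶜ, (if i ∈ S then ∑ j ∈ Sᶜ, w i j else ∑ j ∈ S, w i j)
      = ∑ i ∈ Sᶜ, ∑ j ∈ S, w i j := by
    apply Finset.sum_congr rfl; intro i hi
    have hi' : i ∉ S := Finset.mem_compl.1 hi
    simp [hi']
  rw [e1, e2, Finset.sum_comm (s := Sᶜ) (t := S)]
  have e3 : ∑ i ∈ S, ∑ j ∈ Sᶜ, w j i = ∑ i ∈ S, ∑ j ∈ Sᶜ, w i j := by
    apply Finset.sum_congr rfl; intro i _
    apply Finset.sum_congr rfl; intro j _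
    exact hs j i
  rw [e3]; ring

theorem cutMetric_symm (S : Finset (Fin n)) (i j : Fin n) : cutMetric S i j = cutMetric S j i := by
  unfold cutMetric
  by_cases hi : i ∈ S <;> by_cases hj : j ∈ S <;> simp [hi, hj]

theorem pairSum_mul_cutMetric (w : Fin n → Fin n → ℝ) (hs : ∀ i j, w i j = w j i)
    (S : Finset (Fin n)) :
    pairSum (fun i j => w i j * cutMetric S i j) = ∑ i ∈ S, ∑ j ∈ Sᶜ, w i j := by
  have h := pairSum_eq_half (fun i j => w i j * cutMetric S i j)
    (fun i j => by rw [hs i j, cutMetric_symm S i j]) (fun i => by simp [cutMetric])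
  rw [sum_cutMetric w hs S] at h
  linarith

theorem pairSum_cutMetric (S : Finset (Fin n)) :
    pairSum (cutMetric S) = (S.card : ℝ) * ((n : ℝ) - (S.card : ℝ)) := by
  have h := pairSum_mul_cutMetric (fun _ _ => (1 : ℝ)) (fun _ _ => rfl) S
  simp only [one_mul] at h
  rw [h]
  simp only [Finset.sum_const, nsmul_eq_mul, mul_one, Finset.card_compl, Fintype.card_fin]
  have : S.card ≤ n := by simpa using Finset.card_le_univ S
  rw [Nat.cast_sub this]

/-- `GL(c) ≤ Φ(c)`: normalized cut semimetrics are feasible. -/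
theorem glValue_le_sparsestCut {c : Fin n → Fin n → ℝ} (hc : IsCapacity c) (hn : 2 ≤ n) :
    glValue c ≤ sparsestCut c := by
  apply le_sparsestCut (exists_proper hn)
  intro S h1 h2
  have hcard1 : 0 < S.card := Finset.card_pos.2 h1
  have hcard2 : S.card < n := card_lt_of_ne_univ h2
  have hpos : 0 < pairSum (cutMetric S) := by
    rw [pairSum_cutMetric]
    apply mul_pos (by exact_mod_cast hcard1)
    have : (S.card : ℝ) < n := by exact_mod_cast hcard2
    linarith
  have h := glValue_le_of_negType hc (cutMetric_negType (by omega) S) hpos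
  rw [pairSum_mul_cutMetric c hc.1 S, pairSum_cutMetric] at h
  exact h

theorem exists_feasible (hn : 2 ≤ n) :
    ∃ d : Fin n → Fin n → ℝ, IsNegTypeSemimetric d ∧ pairSum d = 1 := by
  obtain ⟨S, h1, h2⟩ := exists_proper hn
  have hcard1 : 0 < S.card := Finset.card_pos.2 h1
  have hcard2 : S.card < n := card_lt_of_ne_univ h2
  have hpos : 0 < pairSum (cutMetric S) := by
    rw [pairSum_cutMetric]
    apply mul_pos (by exact_mod_cast hcard1)
    have : (S.card : ℝ) < n := by exact_mod_cast hcard2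
    linarith
  set s := pairSum (cutMetric S) with hs
  have hd := cutMetric_negType (n := n) (by omega) S
  refine ⟨fun i j => s⁻¹ * cutMetric S i j, hd.scale (inv_nonneg.2 hpos.le), ?_⟩
  · rw [pairSum_smul, ← hs]
    exact inv_mul_cancel₀ hpos.ne'

end Vale.Agent.Lib.P318
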