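import Vale.Agent.Lib.P318.K2qB

/-!
A crude general bound `Φ(c) ≤ n^3 GL(c)`, so that the supremum defining `g(n)` is finite.
-/

namespace Vale.Agent.Lib.P318

open Finset

/-- pigeonhole: among `n` consecutive intervals of length `δ` above `0`, one contains no value
of `f`, if `f u = 0` for some `u`. -/
theorem exists_empty_interval {n : ℕ} (f : Fin n → ℝ) (u : Fin n) (hu : f u = 0) (δ : ℝ)
    (hδ : 0 < δ) : ∃ k : ℕ, k < n ∧ ∀ j, ¬ ((k:ℝ) * δ < f j ∧ f j ≤ ((k:ℝ) + 1) * δ) := by
  by_contra hcon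
  push Not at hcon
  have hcount : ∀ k : ℕ, k ≤ n → k + 1 ≤ (univ.filter (fun i => f i ≤ (k:ℝ) * δ)).card := by
    intro k
    induction k with
    | zero =>
      intro _
      apply Finset.card_pos.2
      exact ⟨u, by simp [hu]⟩
    | succ k ih =>
      intro hk
      have h1 := ih (by omega)
      obtain ⟨j, hj1, hj2⟩ := hcon k (by omega)
      have hss : (univ.filter (fun i => f i ≤ (k:ℝ) * δ)) ⊂
          (univ.filter (fun i => f i ≤ ((k+1 : ℕ):ℝ) * δ)) := by
        rw [Finset.ssubset_iff_of_subset]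
        · refine ⟨j, ?_, ?_⟩
          · simp only [Finset.mem_filter, Finset.mem_univ, true_and]
            push_cast; exact hj2
          · simp only [Finset.mem_filter, Finset.mem_univ, true_and, not_le]
            exact hj1
        · intro i hi
          simp only [Finset.mem_filter, Finset.mem_univ, true_and] at hi ⊢
          push_cast
          nlinarith
      have := Finset.card_lt_card hss
      omega
  have h := hcount n (le_refl n)
  have h2 : (univ.filter (fun i => f i ≤ (n:ℝ) * δ)).card ≤ n := by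
    simpa using Finset.card_le_univ (univ.filter (fun i => f i ≤ (n:ℝ) * δ))
  omega

theorem pairSum_le_pairSum {n : ℕ} {w w' : Fin n → Fin n → ℝ} (h : ∀ i j, w i j ≤ w' i j) :
    pairSum w ≤ pairSum w' := by
  unfold pairSum
  apply Finset.sum_le_sum; intro i _
  apply Finset.sum_le_sum; intro j _
  split_ifs
  · exact h i j
  · exact le_refl _

/-- crude general bound -/
theorem sparsestCut_le_cube {n : ℕ} (hn : 2 ≤ n) (c : Fin n → Fin n → ℝ) (hc : IsCapacity c) :
    sparsestCut c ≤ (n:ℝ) ^ 3 * glValue c := by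
  have hn0 : (0:ℝ) < n := by exact_mod_cast (by omega : 0 < n)
  have hn3 : (0:ℝ) < (n:ℝ) ^ 3 := by positivity
  rw [← div_le_iff₀' hn3]
  apply le_glValue (exists_feasible hn)
  intro d hd h1
  rw [div_le_iff₀' hn3]
  have : Nonempty (Fin n × Fin n) := ⟨(⟨0, by omega⟩, ⟨0, by omega⟩)⟩
  obtain ⟨⟨u, v⟩, huv⟩ := Finite.exists_max (fun p : Fin n × Fin n => d p.1 p.2)
  set M := d u v with hM
  have hmax : ∀ i j, d i j ≤ M := fun i j => huv (i, j)
  -- M ≥ 1 / n^2
  have hMlow : 1 ≤ (n:ℝ) ^ 2 * M := by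
    have hM0 : 0 ≤ M := hd.nonneg u v
    have : pairSum d ≤ (n:ℝ) ^ 2 * M := by
      unfold pairSum
      calc ∑ i, ∑ j, (if i < j then d i j else 0)
          ≤ ∑ _i : Fin n, ∑ _j : Fin n, M := by
            apply Finset.sum_le_sum; intro i _
            apply Finset.sum_le_sum; intro j _
            split_ifs
            · exact hmax i j
            · exact hM0
        _ = (n:ℝ) ^ 2 * M := by
            simp only [Finset.sum_const, Finset.card_univ, Fintype.card_fin, nsmul_eq_mul]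
            ring
    linarith
  have hMpos : 0 < M := by
    by_contra hneg
    push Not at hneg
    have : (n:ℝ) ^ 2 * M ≤ 0 := mul_nonpos_of_nonneg_of_nonpos (by positivity) hneg
    linarith
  set δ := M / n with hδ
  have hδpos : 0 < δ := div_pos hMpos hn0
  obtain ⟨k, hk, hempty⟩ := exists_empty_interval (fun i => d u i) u (hd.diag u) δ hδpos
  set S : Finset (Fin n) := univ.filter (fun i => d u i ≤ (k:ℝ) * δ) with hS
  have huS : u ∈ S := by
    simp only [hS, Finset.mem_filter, Finset.mem_univ, true_and, hd.diag]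
    positivity
  have hvS : v ∉ S := by
    simp only [hS, Finset.mem_filter, Finset.mem_univ, true_and, not_le]
    have hk' : (k:ℝ) + 1 ≤ n := by exact_mod_cast hk
    have : (k:ℝ) * δ < (n:ℝ) * δ := by nlinarith
    have e : (n:ℝ) * δ = M := by rw [hδ]; field_simp
    linarith
  have hSne : S.Nonempty := ⟨u, huS⟩
  have hSuniv : S ≠ univ := fun h => hvS (h ▸ Finset.mem_univ v)
  have hcut := sparsestCut_le hc hSne hSuniv
  -- crossing pairs are far apart
  have hfar : ∀ i ∈ S, ∀ j ∈ Sᶜ, δ ≤ d i j := by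
    intro i hi j hj
    have hi' : d u i ≤ (k:ℝ) * δ := by
      simpa [hS] using hi
    have hj' : (k:ℝ) * δ < d u j := by
      have := Finset.mem_compl.1 hj
      simpa [hS] using this
    have hj'' : ((k:ℝ) + 1) * δ < d u j := by
      by_contra hcon
      push Not at hcon
      exact hempty j ⟨hj', hcon⟩
    have := hd.2 u i j
    nlinarith
  have hnum : δ * ∑ i ∈ S, ∑ j ∈ Sᶜ, c i j ≤ pairSum (fun i j => c i j * d i j) := by
    have e1 : ∑ i ∈ S, ∑ j ∈ Sᶜ, c i j * d i j
        = pairSum (fun i j => (c i j * d i j) * cutMetric S i j) :=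
      (pairSum_mul_cutMetric (fun i j => c i j * d i j)
        (fun i j => by rw [hc.1 i j, hd.symm i j]) S).symm
    have e2 : pairSum (fun i j => (c i j * d i j) * cutMetric S i j)
        ≤ pairSum (fun i j => c i j * d i j) := by
      apply pairSum_le_pairSum
      intro i j
      have h0 : 0 ≤ c i j * d i j := mul_nonneg (hc.2.1 i j) (hd.nonneg i j)
      have h1 : cutMetric S i j ≤ 1 := by unfold cutMetric; split_ifs <;> norm_num
      nlinarith
    have e3 : δ * ∑ i ∈ S, ∑ j ∈ Sᶜ, c i j ≤ ∑ i ∈ S, ∑ j ∈ Sᶜ, c i j * d i j := by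
      rw [Finset.mul_sum]
      apply Finset.sum_le_sum; intro i hi
      rw [Finset.mul_sum]
      apply Finset.sum_le_sum; intro j hj
      have := hfar i hi j hj
      have := hc.2.1 i j
      nlinarith
    linarith
  -- the denominator is at least one
  have hcard1 : 1 ≤ S.card := Finset.card_pos.2 hSne
  have hcard2 : S.card + 1 ≤ n := card_lt_of_ne_univ hSuniv
  have hden : 1 ≤ (S.card : ℝ) * ((n:ℝ) - (S.card : ℝ)) := by
    have a1 : (1:ℝ) ≤ S.card := by exact_mod_cast hcard1
    have a2 : (S.card : ℝ) + 1 ≤ n := by exact_mod_cast hcard2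
    nlinarith
  have hsum0 : 0 ≤ ∑ i ∈ S, ∑ j ∈ Sᶜ, c i j :=
    Finset.sum_nonneg (fun i _ => Finset.sum_nonneg (fun j _ => hc.2.1 i j))
  have hratio : cutRatio c S ≤ ∑ i ∈ S, ∑ j ∈ Sᶜ, c i j := by
    unfold cutRatio
    rw [div_le_iff₀ (by linarith)]
    nlinarith
  -- combine
  have hδlow : 1 ≤ (n:ℝ) ^ 3 * δ := by
    have : (n:ℝ) ^ 3 * δ = (n:ℝ) ^ 2 * M := by rw [hδ]; field_simp
    linarith
  have hP0 : 0 ≤ pairSum (fun i j => c i j * d i j) :=
    pairSum_nonneg (fun i j => mul_nonneg (hc.2.1 i j) (hd.nonneg i j))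
  calc sparsestCut c ≤ ∑ i ∈ S, ∑ j ∈ Sᶜ, c i j := le_trans hcut hratio
    _ ≤ ((n:ℝ) ^ 3 * δ) * ∑ i ∈ S, ∑ j ∈ Sᶜ, c i j := by nlinarith
    _ = (n:ℝ) ^ 3 * (δ * ∑ i ∈ S, ∑ j ∈ Sᶜ, c i j) := by ring
    _ ≤ (n:ℝ) ^ 3 * pairSum (fun i j => c i j * d i j) :=
        mul_le_mul_of_nonneg_left hnum hn3.le

theorem gapSet_bddAbove {n : ℕ} (hn : 2 ≤ n) : BddAbove (gapSet n) := by
  refine ⟨(n:ℝ) ^ 3, ?_⟩
  rintro r ⟨c, hc, hpos, rfl⟩
  rw [div_le_iff₀ hpos]
  exact sparsestCut_le_cube hn c hc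

theorem gap_eq_one_iff {n : ℕ} (hn : 2 ≤ n) : gap n = 1 ↔ n ≤ 4 := by
  constructor
  · intro h
    by_contra hcon
    push Not at hcon
    obtain ⟨r, hr, h1⟩ := gapSet_gt_one n (by omega)
    have := le_csSup (gapSet_bddAbove hn) hr
    unfold gap at h
    linarith
  · intro h4
    unfold gap
    rw [gapSet_small hn h4]
    exact csSup_singleton 1

theorem gap_lower {n : ℕ} (hn : 5 ≤ n) :
    1 + 4 / (((n:ℝ) - 2) ^ 2 * ((n:ℝ) - 1)) ≤ gap n := by
  obtain ⟨r, hr, h1⟩ := gapSet_explicit n hn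
  exact le_trans h1 (le_csSup (gapSet_bddAbove (by omega)) hr)

end Vale.Agent.Lib.P318
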