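import Mathlib

/-!
Real-variable core lemmas for the five-point case of the uniform Goemans-Linial gap.
-/

namespace Vale.Agent.Lib.P318

/-- interval lemma in two variables -/
theorem exists_xy0 (xlo xhi ylo yhi zlo zhi : ℝ) (h1 : xlo ≤ xhi) (h2 : ylo ≤ yhi)
    (h3 : zlo ≤ zhi) (h4 : xlo + ylo ≤ zhi) (h5 : zlo ≤ xhi + yhi) :
    ∃ x y : ℝ, xlo ≤ x ∧ x ≤ xhi ∧ ylo ≤ y ∧ y ≤ yhi ∧ zlo ≤ x + y ∧ x + y ≤ zhi := by
  -- z = max zlo (xlo + ylo), x = max xlo (z - yhi), y = z - x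
  rcases le_total zlo (xlo + ylo) with hz | hz
  · exact ⟨xlo, ylo, le_refl _, h1, le_refl _, h2, hz, h4⟩
  · rcases le_total xlo (zlo - yhi) with hx | hx
    · exact ⟨zlo - yhi, yhi, hx, by linarith, h2, le_refl _, by linarith, by linarith⟩
    · exact ⟨xlo, zlo - xlo, le_refl _, h1, by linarith, by linarith, by linarith, by linarith⟩

/-- the pentagonal facet lemma: `a1 a2 | b1 b2 b3`. -/
theorem facetA (caa c11 c12 c13 c21 c22 c23 f12 f13 f23
    daa d11 d12 d13 d21 d22 d23 e12 e13 e23 F : ℝ)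
    (hcaa : 0 ≤ caa)
    (hb1 : 4 * F ≤ c11 + c21 + f12 + f13)
    (hb2 : 4 * F ≤ c12 + c22 + f12 + f23)
    (hb3 : 4 * F ≤ c13 + c23 + f13 + f23)
    (h11 : 6 * F ≤ caa + c12 + c13 + c21 + f12 + f13)
    (h12 : 6 * F ≤ caa + c11 + c13 + c22 + f12 + f23)
    (h13 : 6 * F ≤ caa + c11 + c12 + c23 + f13 + f23)
    (h21 : 6 * F ≤ caa + c22 + c23 + c11 + f12 + f13)
    (h22 : 6 * F ≤ caa + c21 + c23 + c12 + f12 + f23)
    (h23 : 6 * F ≤ caa + c21 + c22 + c13 + f13 + f23)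
    (s1 : daa ≤ d11 + d21) (s2 : daa ≤ d12 + d22) (s3 : daa ≤ d13 + d23)
    (t11 : e23 ≤ d12 + d13) (t12 : e13 ≤ d11 + d13) (t13 : e12 ≤ d11 + d12)
    (t21 : e23 ≤ d22 + d23) (t22 : e13 ≤ d21 + d23) (t23 : e12 ≤ d21 + d22)
    (hv : 0 ≤ daa + e12 + e13 + e23 - (d11 + d12 + d13 + d21 + d22 + d23)) :
    F * (2 * (d11 + d12 + d13 + d21 + d22 + d23)) ≤
      caa * daa + c11 * d11 + c12 * d12 + c13 * d13 + c21 * d21 + c22 * d22 + c23 * d23
        + f12 * e12 + f13 * e13 + f23 * e23 := by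
  have hs1 : 0 ≤ d11 + d21 - ((d11 + d12 + d13 + d21 + d22 + d23) - (e12 + e13 + e23)) := by
    linarith
  have hs2 : 0 ≤ d12 + d22 - ((d11 + d12 + d13 + d21 + d22 + d23) - (e12 + e13 + e23)) := by
    linarith
  have hs3 : 0 ≤ d13 + d23 - ((d11 + d12 + d13 + d21 + d22 + d23) - (e12 + e13 + e23)) := by
    linarith
  have p0 := mul_nonneg hcaa hv
  have p1 := mul_nonneg hs1 (sub_nonneg.2 hb1)
  have p2 := mul_nonneg hs2 (sub_nonneg.2 hb2)
  have p3 := mul_nonneg hs3 (sub_nonneg.2 hb3)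
  have q11 := mul_nonneg (sub_nonneg.2 t11) (sub_nonneg.2 h11)
  have q12 := mul_nonneg (sub_nonneg.2 t12) (sub_nonneg.2 h12)
  have q13 := mul_nonneg (sub_nonneg.2 t13) (sub_nonneg.2 h13)
  have q21 := mul_nonneg (sub_nonneg.2 t21) (sub_nonneg.2 h21)
  have q22 := mul_nonneg (sub_nonneg.2 t22) (sub_nonneg.2 h22)
  have q23 := mul_nonneg (sub_nonneg.2 t23) (sub_nonneg.2 h23)
  linarith [p0, p1, p2, p3, q11, q12, q13, q21, q22, q23]

/-- the triangle facet lemma: `m` lies between `p` and `q`. -/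
theorem lemT (cpq cpr cps cpm cqr cqs cqm crs crm csm
    dpq dpr dps dpm dqr dqs dqm drs drm dsm F : ℝ)
    (hc_prs : 6 * F ≤ cpq + cpm + cqr + crm + cqs + csm)
    (hc_qrs : 6 * F ≤ cpq + cqm + cpr + crm + cps + csm)
    (hc_pr : 6 * F ≤ cpq + cps + cpm + cqr + crs + crm)
    (hc_ps : 6 * F ≤ cpq + cpr + cpm + cqs + crs + csm)
    (hc_qr : 6 * F ≤ cpq + cqs + cqm + cpr + crs + crm)
    (hc_qs : 6 * F ≤ cpq + cqr + cqm + cps + crs + csm)
    (hc_rs : 6 * F ≤ cpr + cqr + crm + cps + cqs + csm)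
    (hc_p : 4 * F ≤ cpq + cpr + cps + cpm)
    (hc_q : 4 * F ≤ cpq + cqr + cqs + cqm)
    (hc_r : 4 * F ≤ cpr + cqr + crs + crm)
    (hc_s : 4 * F ≤ cps + cqs + crs + csm)
    (heq : dpq = dpm + dqm)
    (t1 : dpr ≤ dpm + drm) (t2 : dps ≤ dpm + dsm) (t3 : dsm ≤ dps + dpm) (t4 : drm ≤ dpr + dpm)
    (t5 : dqr ≤ dqm + drm) (t6 : dqs ≤ dqm + dsm) (t7 : dsm ≤ dqs + dqm) (t8 : drm ≤ dqr + dqm)
    (t9 : dpq ≤ dpr + dqr) (t10 : dpq ≤ dps + dqs) (t11 : drs ≤ drm + dsm)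
    (t12 : drs ≤ dpr + dps) (t13 : drs ≤ dqr + dqs) (t14 : dsm ≤ drs + drm)
    (t15 : dps ≤ dpr + drs) (t16 : dqs ≤ dqr + drs) (t17 : drm ≤ drs + dsm)
    (t18 : dpr ≤ dps + drs) (t19 : dqr ≤ dqs + drs)
    (pent1 : drs + drm + dsm + dpq ≤ dpr + dps + dpm + dqr + dqs + dqm)
    (pent2 : dpq + dps + dqs + drm ≤ dpr + dpm + dqr + dqm + drs + dsm)
    (pent3 : dpq + dpr + dqr + dsm ≤ dps + dpm + dqs + dqm + drs + drm) :
    F * (dpq + dpr + dps + dpm + dqr + dqs + dqm + drs + drm + dsm) ≤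
      cpq * dpq + cpr * dpr + cps * dps + cpm * dpm + cqr * dqr + cqs * dqs + cqm * dqm
        + crs * drs + crm * drm + csm * dsm := by
  subst heq
  obtain ⟨x, y, hx1, hx2, hy1, hy2, hz1, hz2⟩ := exists_xy0
    (max 0 ((dpm + drm - dpr) + (dpm + dsm - dps) - 2 * dpm))
    (min (dpm + drm - dpr) (dpm + dsm - dps))
    (max 0 ((dqm + drm - dqr) + (dqm + dsm - dqs) - 2 * dqm))
    (min (dqm + drm - dqr) (dqm + dsm - dqs))
    (max ((dpm + drm - dpr) + (dqm + drm - dqr) + (drm + dsm - drs) - 2 * drm)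
      ((dpm + dsm - dps) + (dqm + dsm - dqs) + (drm + dsm - drs) - 2 * dsm))
    (drm + dsm - drs)
    (by
      apply max_le <;> apply le_min <;> linarith)
    (by
      apply max_le <;> apply le_min <;> linarith)
    (by
      apply max_le <;> linarith)
    (by
      rcases max_choice 0 ((dpm + drm - dpr) + (dpm + dsm - dps) - 2 * dpm) with h | h <;>
      rcases max_choice 0 ((dqm + drm - dqr) + (dqm + dsm - dqs) - 2 * dqm) with h' | h' <;>
      rw [h, h'] <;> linarith)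
    (by
      rcases min_choice (dpm + drm - dpr) (dpm + dsm - dps) with h | h <;>
      rcases min_choice (dqm + drm - dqr) (dqm + dsm - dqs) with h' | h' <;>
      rw [h, h'] <;> apply max_le <;> linarith)
  have hx1a := le_trans (le_max_left _ _) hx1
  have hx1b := le_trans (le_max_right _ _) hx1
  have hx2a := le_trans hx2 (min_le_left _ _)
  have hx2b := le_trans hx2 (min_le_right _ _)
  have hy1a := le_trans (le_max_left _ _) hy1
  have hy1b := le_trans (le_max_right _ _) hy1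
  have hy2a := le_trans hy2 (min_le_left _ _)
  have hy2b := le_trans hy2 (min_le_right _ _)
  have hz1a := le_trans (le_max_left _ _) hz1
  have hz1b := le_trans (le_max_right _ _) hz1
  have p1 := mul_nonneg hx1a (sub_nonneg.2 hc_prs)
  have p2 := mul_nonneg hy1a (sub_nonneg.2 hc_qrs)
  have p3 := mul_nonneg (sub_nonneg.2 hx2a) (sub_nonneg.2 hc_pr)
  have p4 := mul_nonneg (sub_nonneg.2 hx2b) (sub_nonneg.2 hc_ps)
  have p5 := mul_nonneg (sub_nonneg.2 hy2a) (sub_nonneg.2 hc_qr)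
  have p6 := mul_nonneg (sub_nonneg.2 hy2b) (sub_nonneg.2 hc_qs)
  have p7 := mul_nonneg (sub_nonneg.2 hz2) (sub_nonneg.2 hc_rs)
  have p8 := mul_nonneg (sub_nonneg.2 hx1b) (sub_nonneg.2 hc_p)
  have p9 := mul_nonneg (sub_nonneg.2 hy1b) (sub_nonneg.2 hc_q)
  have p10 := mul_nonneg (sub_nonneg.2 hz1a) (sub_nonneg.2 hc_r)
  have p11 := mul_nonneg (sub_nonneg.2 hz1b) (sub_nonneg.2 hc_s)
  linarith [p1, p2, p3, p4, p5, p6, p7, p8, p9, p10, p11]

end Vale.Agent.Lib.P318
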