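import Vale.Agent.Lib.P318.Core5

namespace Vale.Agent.Lib.P318

set_option maxHeartbeats 1600000 in
theorem cutCone5 (c01 c02 c03 c04 c12 c13 c14 c23 c24 c34
    d01 d02 d03 d04 d12 d13 d14 d23 d24 d34 F : ℝ)
    (hc01 : 0 ≤ c01)
    (hc02 : 0 ≤ c02)
    (hc03 : 0 ≤ c03)
    (hc04 : 0 ≤ c04)
    (hc12 : 0 ≤ c12)
    (hc13 : 0 ≤ c13)
    (hc14 : 0 ≤ c14)
    (hc23 : 0 ≤ c23)
    (hc24 : 0 ≤ c24)
    (hc34 : 0 ≤ c34)
    (hS0 : 4 * F ≤ c01 + c02 + c03 + c04)
    (hS1 : 4 * F ≤ c01 + c12 + c13 + c14)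
    (hS2 : 4 * F ≤ c02 + c12 + c23 + c24)
    (hS3 : 4 * F ≤ c03 + c13 + c23 + c34)
    (hS01 : 6 * F ≤ c02 + c03 + c04 + c12 + c13 + c14)
    (hS02 : 6 * F ≤ c01 + c03 + c04 + c12 + c23 + c24)
    (hS03 : 6 * F ≤ c01 + c02 + c04 + c13 + c23 + c34)
    (hS12 : 6 * F ≤ c01 + c13 + c14 + c02 + c23 + c24)
    (hS13 : 6 * F ≤ c01 + c12 + c14 + c03 + c23 + c34)
    (hS23 : 6 * F ≤ c02 + c12 + c24 + c03 + c13 + c34)
    (hS012 : 6 * F ≤ c03 + c04 + c13 + c14 + c23 + c24)
    (hS013 : 6 * F ≤ c02 + c04 + c12 + c14 + c23 + c34)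
    (hS023 : 6 * F ≤ c01 + c04 + c12 + c24 + c13 + c34)
    (hS123 : 6 * F ≤ c01 + c14 + c02 + c24 + c03 + c34)
    (hS0123 : 4 * F ≤ c04 + c14 + c24 + c34)
    (t01_2 : d01 ≤ d02 + d12)
    (t01_3 : d01 ≤ d03 + d13)
    (t01_4 : d01 ≤ d04 + d14)
    (t02_1 : d02 ≤ d01 + d12)
    (t02_3 : d02 ≤ d03 + d23)
    (t02_4 : d02 ≤ d04 + d24)
    (t03_1 : d03 ≤ d01 + d13)
    (t03_2 : d03 ≤ d02 + d23)
    (t03_4 : d03 ≤ d04 + d34)
    (t04_1 : d04 ≤ d01 + d14)
    (t04_2 : d04 ≤ d02 + d24)
    (t04_3 : d04 ≤ d03 + d34)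
    (t12_0 : d12 ≤ d01 + d02)
    (t12_3 : d12 ≤ d13 + d23)
    (t12_4 : d12 ≤ d14 + d24)
    (t13_0 : d13 ≤ d01 + d03)
    (t13_2 : d13 ≤ d12 + d23)
    (t13_4 : d13 ≤ d14 + d34)
    (t14_0 : d14 ≤ d01 + d04)
    (t14_2 : d14 ≤ d12 + d24)
    (t14_3 : d14 ≤ d13 + d34)
    (t23_0 : d23 ≤ d02 + d03)
    (t23_1 : d23 ≤ d12 + d13)
    (t23_4 : d23 ≤ d24 + d34)
    (t24_0 : d24 ≤ d02 + d04)
    (t24_1 : d24 ≤ d12 + d14)
    (t24_3 : d24 ≤ d23 + d34)
    (t34_0 : d34 ≤ d03 + d04)
    (t34_1 : d34 ≤ d13 + d14)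
    (t34_2 : d34 ≤ d23 + d24)
    (pe01 : d01 + d23 + d24 + d34 ≤ d02 + d03 + d04 + d12 + d13 + d14)
    (pe02 : d02 + d13 + d14 + d34 ≤ d01 + d03 + d04 + d12 + d23 + d24)
    (pe03 : d03 + d12 + d14 + d24 ≤ d01 + d02 + d04 + d13 + d23 + d34)
    (pe04 : d04 + d12 + d13 + d23 ≤ d01 + d02 + d03 + d14 + d24 + d34)
    (pe12 : d12 + d03 + d04 + d34 ≤ d01 + d13 + d14 + d02 + d23 + d24)
    (pe13 : d13 + d02 + d04 + d24 ≤ d01 + d12 + d14 + d03 + d23 + d34)
    (pe14 : d14 + d02 + d03 + d23 ≤ d01 + d12 + d13 + d04 + d24 + d34)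
    (pe23 : d23 + d01 + d04 + d14 ≤ d02 + d12 + d24 + d03 + d13 + d34)
    (pe24 : d24 + d01 + d03 + d13 ≤ d02 + d12 + d23 + d04 + d14 + d34)
    (pe34 : d34 + d01 + d02 + d12 ≤ d03 + d13 + d23 + d04 + d14 + d24)
    : F * (d01 + d02 + d03 + d04 + d12 + d13 + d14 + d23 + d24 + d34) ≤
      c01 * d01 + c02 * d02 + c03 * d03 + c04 * d04 + c12 * d12 + c13 * d13 + c14 * d14 + c23 * d23 + c24 * d24 + c34 * d34 := by
  obtain ⟨a, ha⟩ := Finite.exists_min (![d04 + d14 - d01,
    d04 + d24 - d02,
    d04 + d34 - d03,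
    d14 + d24 - d12,
    d14 + d34 - d13,
    d24 + d34 - d23,
    (d01 + d02 + d03 + d14 + d24 + d34) - (d04 + d12 + d13 + d23),
    (d01 + d12 + d13 + d04 + d24 + d34) - (d14 + d02 + d03 + d23),
    (d02 + d12 + d23 + d04 + d14 + d34) - (d24 + d01 + d03 + d13),
    (d03 + d13 + d23 + d04 + d14 + d24) - (d34 + d01 + d02 + d12)] : Fin 10 → ℝ)
  have h0 := ha 0
  have h1 := ha 1
  have h2 := ha 2
  have h3 := ha 3
  have h4 := ha 4
  have h5 := ha 5
  have h6 := ha 6
  have h7 := ha 7
  have h8 := ha 8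
  have h9 := ha 9
  clear ha
  fin_cases a <;> simp only [Fin.isValue, Fin.zero_eta, Fin.mk_one, Fin.reduceFinMk, Matrix.cons_val, Matrix.cons_val_zero, Matrix.cons_val_one] at h0 h1 h2 h3 h4 h5 h6 h7 h8 h9
  · have hrho : 0 ≤ ((d04 + d14 - d01) / 2) := by linarith
    have key := lemT c01 c02 c03 c04 c12 c13 c14 c23 c24 c34
      d01 d02 d03 (d04 - ((d04 + d14 - d01) / 2)) d12 d13 (d14 - ((d04 + d14 - d01) / 2)) d23 (d24 - ((d04 + d14 - d01) / 2)) (d34 - ((d04 + d14 - d01) / 2)) F
      (by linarith) (by linarith) (by linarith) (by linarith) (by linarith) (by linarith) (by linarith) (by linarith) (by linarith) (by linarith) (by linarith) (by linarith) (by linarith) (by linarith) (by linarith) (by linarith) (by linarith) (by linarith) (by linarith) (by linarith) (by linarith) (by linarith) (by linarith) (by linarith) (by linarith) (by linarith) (by linarith) (by linarith) (by linarith) (by linarith) (by linarith) (by linarith) (by linarith) (by linarith)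
    have pr := mul_nonneg hrho (sub_nonneg.2 hS0123)
    linarith [key, pr]
  · have hrho : 0 ≤ ((d04 + d24 - d02) / 2) := by linarith
    have key := lemT c02 c01 c03 c04 c12 c23 c24 c13 c14 c34
      d02 d01 d03 (d04 - ((d04 + d24 - d02) / 2)) d12 d23 (d24 - ((d04 + d24 - d02) / 2)) d13 (d14 - ((d04 + d24 - d02) / 2)) (d34 - ((d04 + d24 - d02) / 2)) F
      (by linarith) (by linarith) (by linarith) (by linarith) (by linarith) (by linarith) (by linarith) (by linarith) (by linarith) (by linarith) (by linarith) (by linarith) (by linarith) (by linarith) (by linarith) (by linarith) (by linarith) (by linarith) (by linarith) (by linarith) (by linarith) (by linarith) (by linarith) (by linarith) (by linarith) (by linarith) (by linarith) (by linarith) (by linarith) (by linarith) (by linarith) (by linarith) (by linarith) (by linarith)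
    have pr := mul_nonneg hrho (sub_nonneg.2 hS0123)
    linarith [key, pr]
  · have hrho : 0 ≤ ((d04 + d34 - d03) / 2) := by linarith
    have key := lemT c03 c01 c02 c04 c13 c23 c34 c12 c14 c24
      d03 d01 d02 (d04 - ((d04 + d34 - d03) / 2)) d13 d23 (d34 - ((d04 + d34 - d03) / 2)) d12 (d14 - ((d04 + d34 - d03) / 2)) (d24 - ((d04 + d34 - d03) / 2)) F
      (by linarith) (by linarith) (by linarith) (by linarith) (by linarith) (by linarith) (by linarith) (by linarith) (by linarith) (by linarith) (by linarith) (by linarith) (by linarith) (by linarith) (by linarith) (by linarith) (by linarith) (by linarith) (by linarith) (by linarith) (by linarith) (by linarith) (by linarith) (by linarith) (by linarith) (by linarith) (by linarith) (by linarith) (by linarith) (by linarith) (by linarith) (by linarith) (by linarith) (by linarith)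
    have pr := mul_nonneg hrho (sub_nonneg.2 hS0123)
    linarith [key, pr]
  · have hrho : 0 ≤ ((d14 + d24 - d12) / 2) := by linarith
    have key := lemT c12 c01 c13 c14 c02 c23 c24 c03 c04 c34
      d12 d01 d13 (d14 - ((d14 + d24 - d12) / 2)) d02 d23 (d24 - ((d14 + d24 - d12) / 2)) d03 (d04 - ((d14 + d24 - d12) / 2)) (d34 - ((d14 + d24 - d12) / 2)) F
      (by linarith) (by linarith) (by linarith) (by linarith) (by linarith) (by linarith) (by linarith) (by linarith) (by linarith) (by linarith) (by linarith) (by linarith) (by linarith) (by linarith) (by linarith) (by linarith) (by linarith) (by linarith) (by linarith) (by linarith) (by linarith) (by linarith) (by linarith) (by linarith) (by linarith) (by linarith) (by linarith) (by linarith) (by linarith) (by linarith) (by linarith) (by linarith) (by linarith) (by linarith)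
    have pr := mul_nonneg hrho (sub_nonneg.2 hS0123)
    linarith [key, pr]
  · have hrho : 0 ≤ ((d14 + d34 - d13) / 2) := by linarith
    have key := lemT c13 c01 c12 c14 c03 c23 c34 c02 c04 c24
      d13 d01 d12 (d14 - ((d14 + d34 - d13) / 2)) d03 d23 (d34 - ((d14 + d34 - d13) / 2)) d02 (d04 - ((d14 + d34 - d13) / 2)) (d24 - ((d14 + d34 - d13) / 2)) F
      (by linarith) (by linarith) (by linarith) (by linarith) (by linarith) (by linarith) (by linarith) (by linarith) (by linarith) (by linarith) (by linarith) (by linarith) (by linarith) (by linarith) (by linarith) (by linarith) (by linarith) (by linarith) (by linarith) (by linarith) (by linarith) (by linarith) (by linarith) (by linarith) (by linarith) (by linarith) (by linarith) (by linarith) (by linarith) (by linarith) (by linarith) (by linarith) (by linarith) (by linarith)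
    have pr := mul_nonneg hrho (sub_nonneg.2 hS0123)
    linarith [key, pr]
  · have hrho : 0 ≤ ((d24 + d34 - d23) / 2) := by linarith
    have key := lemT c23 c02 c12 c24 c03 c13 c34 c01 c04 c14
      d23 d02 d12 (d24 - ((d24 + d34 - d23) / 2)) d03 d13 (d34 - ((d24 + d34 - d23) / 2)) d01 (d04 - ((d24 + d34 - d23) / 2)) (d14 - ((d24 + d34 - d23) / 2)) F
      (by linarith) (by linarith) (by linarith) (by linarith) (by linarith) (by linarith) (by linarith) (by linarith) (by linarith) (by linarith) (by linarith) (by linarith) (by linarith) (by linarith) (by linarith) (by linarith) (by linarith) (by linarith) (by linarith) (by linarith) (by linarith) (by linarith) (by linarith) (by linarith) (by linarith) (by linarith) (by linarith) (by linarith) (by linarith) (by linarith) (by linarith) (by linarith) (by linarith) (by linarith)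
    have pr := mul_nonneg hrho (sub_nonneg.2 hS0123)
    linarith [key, pr]
  · have hrho : 0 ≤ (((d01 + d02 + d03 + d14 + d24 + d34) - (d04 + d12 + d13 + d23)) / 2) := by linarith
    have key := facetA c04 c01 c02 c03 c14 c24 c34 c12 c13 c23
      (d04 - (((d01 + d02 + d03 + d14 + d24 + d34) - (d04 + d12 + d13 + d23)) / 2)) d01 d02 d03 (d14 - (((d01 + d02 + d03 + d14 + d24 + d34) - (d04 + d12 + d13 + d23)) / 2)) (d24 - (((d01 + d02 + d03 + d14 + d24 + d34) - (d04 + d12 + d13 + d23)) / 2)) (d34 - (((d01 + d02 + d03 + d14 + d24 + d34) - (d04 + d12 + d13 + d23)) / 2)) d12 d13 d23 F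
      (by linarith) (by linarith) (by linarith) (by linarith) (by linarith) (by linarith) (by linarith) (by linarith) (by linarith) (by linarith) (by linarith) (by linarith) (by linarith) (by linarith) (by linarith) (by linarith) (by linarith) (by linarith) (by linarith) (by linarith)
    have pr := mul_nonneg hrho (sub_nonneg.2 hS0123)
    linarith [key, pr]
  · have hrho : 0 ≤ (((d01 + d12 + d13 + d04 + d24 + d34) - (d14 + d02 + d03 + d23)) / 2) := by linarith
    have key := facetA c14 c01 c12 c13 c04 c24 c34 c02 c03 c23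
      (d14 - (((d01 + d12 + d13 + d04 + d24 + d34) - (d14 + d02 + d03 + d23)) / 2)) d01 d12 d13 (d04 - (((d01 + d12 + d13 + d04 + d24 + d34) - (d14 + d02 + d03 + d23)) / 2)) (d24 - (((d01 + d12 + d13 + d04 + d24 + d34) - (d14 + d02 + d03 + d23)) / 2)) (d34 - (((d01 + d12 + d13 + d04 + d24 + d34) - (d14 + d02 + d03 + d23)) / 2)) d02 d03 d23 F
      (by linarith) (by linarith) (by linarith) (by linarith) (by linarith) (by linarith) (by linarith) (by linarith) (by linarith) (by linarith) (by linarith) (by linarith) (by linarith) (by linarith) (by linarith) (by linarith) (by linarith) (by linarith) (by linarith) (by linarith)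
    have pr := mul_nonneg hrho (sub_nonneg.2 hS0123)
    linarith [key, pr]
  · have hrho : 0 ≤ (((d02 + d12 + d23 + d04 + d14 + d34) - (d24 + d01 + d03 + d13)) / 2) := by linarith
    have key := facetA c24 c02 c12 c23 c04 c14 c34 c01 c03 c13
      (d24 - (((d02 + d12 + d23 + d04 + d14 + d34) - (d24 + d01 + d03 + d13)) / 2)) d02 d12 d23 (d04 - (((d02 + d12 + d23 + d04 + d14 + d34) - (d24 + d01 + d03 + d13)) / 2)) (d14 - (((d02 + d12 + d23 + d04 + d14 + d34) - (d24 + d01 + d03 + d13)) / 2)) (d34 - (((d02 + d12 + d23 + d04 + d14 + d34) - (d24 + d01 + d03 + d13)) / 2)) d01 d03 d13 F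
      (by linarith) (by linarith) (by linarith) (by linarith) (by linarith) (by linarith) (by linarith) (by linarith) (by linarith) (by linarith) (by linarith) (by linarith) (by linarith) (by linarith) (by linarith) (by linarith) (by linarith) (by linarith) (by linarith) (by linarith)
    have pr := mul_nonneg hrho (sub_nonneg.2 hS0123)
    linarith [key, pr]
  · have hrho : 0 ≤ (((d03 + d13 + d23 + d04 + d14 + d24) - (d34 + d01 + d02 + d12)) / 2) := by linarith
    have key := facetA c34 c03 c13 c23 c04 c14 c24 c01 c02 c12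
      (d34 - (((d03 + d13 + d23 + d04 + d14 + d24) - (d34 + d01 + d02 + d12)) / 2)) d03 d13 d23 (d04 - (((d03 + d13 + d23 + d04 + d14 + d24) - (d34 + d01 + d02 + d12)) / 2)) (d14 - (((d03 + d13 + d23 + d04 + d14 + d24) - (d34 + d01 + d02 + d12)) / 2)) (d24 - (((d03 + d13 + d23 + d04 + d14 + d24) - (d34 + d01 + d02 + d12)) / 2)) d01 d02 d12 F
      (by linarith) (by linarith) (by linarith) (by linarith) (by linarith) (by linarith) (by linarith) (by linarith) (by linarith) (by linarith) (by linarith) (by linarith) (by linarith) (by linarith) (by linarith) (by linarith) (by linarith) (by linarith) (by linarith) (by linarith)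
    have pr := mul_nonneg hrho (sub_nonneg.2 hS0123)
    linarith [key, pr]

set_option maxHeartbeats 1600000 in
theorem core5 (c01 c02 c03 c04 c12 c13 c14 c23 c24 c34
    d01 d02 d03 d04 d12 d13 d14 d23 d24 d34 F : ℝ) (hF : 0 ≤ F)
    (hc01 : 0 ≤ c01)
    (hc02 : 0 ≤ c02)
    (hc03 : 0 ≤ c03)
    (hc04 : 0 ≤ c04)
    (hc12 : 0 ≤ c12)
    (hc13 : 0 ≤ c13)
    (hc14 : 0 ≤ c14)
    (hc23 : 0 ≤ c23)
    (hc24 : 0 ≤ c24)
    (hc34 : 0 ≤ c34)
    (hS0 : 4 * F ≤ c01 + c02 + c03 + c04)
    (hS1 : 4 * F ≤ c01 + c12 + c13 + c14)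
    (hS2 : 4 * F ≤ c02 + c12 + c23 + c24)
    (hS3 : 4 * F ≤ c03 + c13 + c23 + c34)
    (hS01 : 6 * F ≤ c02 + c03 + c04 + c12 + c13 + c14)
    (hS02 : 6 * F ≤ c01 + c03 + c04 + c12 + c23 + c24)
    (hS03 : 6 * F ≤ c01 + c02 + c04 + c13 + c23 + c34)
    (hS12 : 6 * F ≤ c01 + c13 + c14 + c02 + c23 + c24)
    (hS13 : 6 * F ≤ c01 + c12 + c14 + c03 + c23 + c34)
    (hS23 : 6 * F ≤ c02 + c12 + c24 + c03 + c13 + c34)
    (hS012 : 6 * F ≤ c03 + c04 + c13 + c14 + c23 + c24)
    (hS013 : 6 * F ≤ c02 + c04 + c12 + c14 + c23 + c34)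
    (hS023 : 6 * F ≤ c01 + c04 + c12 + c24 + c13 + c34)
    (hS123 : 6 * F ≤ c01 + c14 + c02 + c24 + c03 + c34)
    (hS0123 : 4 * F ≤ c04 + c14 + c24 + c34)
    (t01_2 : d01 ≤ d02 + d12)
    (t01_3 : d01 ≤ d03 + d13)
    (t01_4 : d01 ≤ d04 + d14)
    (t02_1 : d02 ≤ d01 + d12)
    (t02_3 : d02 ≤ d03 + d23)
    (t02_4 : d02 ≤ d04 + d24)
    (t03_1 : d03 ≤ d01 + d13)
    (t03_2 : d03 ≤ d02 + d23)
    (t03_4 : d03 ≤ d04 + d34)
    (t04_1 : d04 ≤ d01 + d14)
    (t04_2 : d04 ≤ d02 + d24)
    (t04_3 : d04 ≤ d03 + d34)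
    (t12_0 : d12 ≤ d01 + d02)
    (t12_3 : d12 ≤ d13 + d23)
    (t12_4 : d12 ≤ d14 + d24)
    (t13_0 : d13 ≤ d01 + d03)
    (t13_2 : d13 ≤ d12 + d23)
    (t13_4 : d13 ≤ d14 + d34)
    (t14_0 : d14 ≤ d01 + d04)
    (t14_2 : d14 ≤ d12 + d24)
    (t14_3 : d14 ≤ d13 + d34)
    (t23_0 : d23 ≤ d02 + d03)
    (t23_1 : d23 ≤ d12 + d13)
    (t23_4 : d23 ≤ d24 + d34)
    (t24_0 : d24 ≤ d02 + d04)
    (t24_1 : d24 ≤ d12 + d14)
    (t24_3 : d24 ≤ d23 + d34)
    (t34_0 : d34 ≤ d03 + d04)
    (t34_1 : d34 ≤ d13 + d14)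
    (t34_2 : d34 ≤ d23 + d24)
    (ng01 : 9 * d01 + 4 * (d23 + d24 + d34) ≤ 6 * (d02 + d03 + d04 + d12 + d13 + d14))
    (ng02 : 9 * d02 + 4 * (d13 + d14 + d34) ≤ 6 * (d01 + d03 + d04 + d12 + d23 + d24))
    (ng03 : 9 * d03 + 4 * (d12 + d14 + d24) ≤ 6 * (d01 + d02 + d04 + d13 + d23 + d34))
    (ng04 : 9 * d04 + 4 * (d12 + d13 + d23) ≤ 6 * (d01 + d02 + d03 + d14 + d24 + d34))
    (ng12 : 9 * d12 + 4 * (d03 + d04 + d34) ≤ 6 * (d01 + d13 + d14 + d02 + d23 + d24))
    (ng13 : 9 * d13 + 4 * (d02 + d04 + d24) ≤ 6 * (d01 + d12 + d14 + d03 + d23 + d34))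
    (ng14 : 9 * d14 + 4 * (d02 + d03 + d23) ≤ 6 * (d01 + d12 + d13 + d04 + d24 + d34))
    (ng23 : 9 * d23 + 4 * (d01 + d04 + d14) ≤ 6 * (d02 + d12 + d24 + d03 + d13 + d34))
    (ng24 : 9 * d24 + 4 * (d01 + d03 + d13) ≤ 6 * (d02 + d12 + d23 + d04 + d14 + d34))
    (ng34 : 9 * d34 + 4 * (d01 + d02 + d12) ≤ 6 * (d03 + d13 + d23 + d04 + d14 + d24))
    : 9 / 10 * F * (d01 + d02 + d03 + d04 + d12 + d13 + d14 + d23 + d24 + d34) ≤
      c01 * d01 + c02 * d02 + c03 * d03 + c04 * d04 + c12 * d12 + c13 * d13 + c14 * d14 + c23 * d23 + c24 * d24 + c34 * d34 := by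
  by_cases pe01 : d01 + d23 + d24 + d34 ≤ d02 + d03 + d04 + d12 + d13 + d14
  swap
  · have key := facetA c01 c02 c03 c04 c12 c13 c14 c23 c24 c34
      d01 d02 d03 d04 d12 d13 d14 d23 d24 d34 F
      (by linarith) (by linarith) (by linarith) (by linarith) (by linarith) (by linarith) (by linarith) (by linarith) (by linarith) (by linarith) (by linarith) (by linarith) (by linarith) (by linarith) (by linarith) (by linarith) (by linarith) (by linarith) (by linarith) (by linarith)
    have pr := mul_nonneg hF (show 0 ≤ 2 * (d02 + d03 + d04 + d12 + d13 + d14) - 9 / 10 * (d01 + d02 + d03 + d04 + d12 + d13 + d14 + d23 + d24 + d34) by linarith)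
    linarith [key, pr]
  by_cases pe02 : d02 + d13 + d14 + d34 ≤ d01 + d03 + d04 + d12 + d23 + d24
  swap
  · have key := facetA c02 c01 c03 c04 c12 c23 c24 c13 c14 c34
      d02 d01 d03 d04 d12 d23 d24 d13 d14 d34 F
      (by linarith) (by linarith) (by linarith) (by linarith) (by linarith) (by linarith) (by linarith) (by linarith) (by linarith) (by linarith) (by linarith) (by linarith) (by linarith) (by linarith) (by linarith) (by linarith) (by linarith) (by linarith) (by linarith) (by linarith)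
    have pr := mul_nonneg hF (show 0 ≤ 2 * (d01 + d03 + d04 + d12 + d23 + d24) - 9 / 10 * (d01 + d02 + d03 + d04 + d12 + d13 + d14 + d23 + d24 + d34) by linarith)
    linarith [key, pr]
  by_cases pe03 : d03 + d12 + d14 + d24 ≤ d01 + d02 + d04 + d13 + d23 + d34
  swap
  · have key := facetA c03 c01 c02 c04 c13 c23 c34 c12 c14 c24
      d03 d01 d02 d04 d13 d23 d34 d12 d14 d24 F
      (by linarith) (by linarith) (by linarith) (by linarith) (by linarith) (by linarith) (by linarith) (by linarith) (by linarith) (by linarith) (by linarith) (by linarith) (by linarith) (by linarith) (by linarith) (by linarith) (by linarith) (by linarith) (by linarith) (by linarith)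
    have pr := mul_nonneg hF (show 0 ≤ 2 * (d01 + d02 + d04 + d13 + d23 + d34) - 9 / 10 * (d01 + d02 + d03 + d04 + d12 + d13 + d14 + d23 + d24 + d34) by linarith)
    linarith [key, pr]
  by_cases pe04 : d04 + d12 + d13 + d23 ≤ d01 + d02 + d03 + d14 + d24 + d34
  swap
  · have key := facetA c04 c01 c02 c03 c14 c24 c34 c12 c13 c23
      d04 d01 d02 d03 d14 d24 d34 d12 d13 d23 F
      (by linarith) (by linarith) (by linarith) (by linarith) (by linarith) (by linarith) (by linarith) (by linarith) (by linarith) (by linarith) (by linarith) (by linarith) (by linarith) (by linarith) (by linarith) (by linarith) (by linarith) (by linarith) (by linarith) (by linarith)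
    have pr := mul_nonneg hF (show 0 ≤ 2 * (d01 + d02 + d03 + d14 + d24 + d34) - 9 / 10 * (d01 + d02 + d03 + d04 + d12 + d13 + d14 + d23 + d24 + d34) by linarith)
    linarith [key, pr]
  by_cases pe12 : d12 + d03 + d04 + d34 ≤ d01 + d13 + d14 + d02 + d23 + d24
  swap
  · have key := facetA c12 c01 c13 c14 c02 c23 c24 c03 c04 c34
      d12 d01 d13 d14 d02 d23 d24 d03 d04 d34 F
      (by linarith) (by linarith) (by linarith) (by linarith) (by linarith) (by linarith) (by linarith) (by linarith) (by linarith) (by linarith) (by linarith) (by linarith) (by linarith) (by linarith) (by linarith) (by linarith) (by linarith) (by linarith) (by linarith) (by linarith)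
    have pr := mul_nonneg hF (show 0 ≤ 2 * (d01 + d13 + d14 + d02 + d23 + d24) - 9 / 10 * (d01 + d02 + d03 + d04 + d12 + d13 + d14 + d23 + d24 + d34) by linarith)
    linarith [key, pr]
  by_cases pe13 : d13 + d02 + d04 + d24 ≤ d01 + d12 + d14 + d03 + d23 + d34
  swap
  · have key := facetA c13 c01 c12 c14 c03 c23 c34 c02 c04 c24
      d13 d01 d12 d14 d03 d23 d34 d02 d04 d24 F
      (by linarith) (by linarith) (by linarith) (by linarith) (by linarith) (by linarith) (by linarith) (by linarith) (by linarith) (by linarith) (by linarith) (by linarith) (by linarith) (by linarith) (by linarith) (by linarith) (by linarith) (by linarith) (by linarith) (by linarith)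
    have pr := mul_nonneg hF (show 0 ≤ 2 * (d01 + d12 + d14 + d03 + d23 + d34) - 9 / 10 * (d01 + d02 + d03 + d04 + d12 + d13 + d14 + d23 + d24 + d34) by linarith)
    linarith [key, pr]
  by_cases pe14 : d14 + d02 + d03 + d23 ≤ d01 + d12 + d13 + d04 + d24 + d34
  swap
  · have key := facetA c14 c01 c12 c13 c04 c24 c34 c02 c03 c23
      d14 d01 d12 d13 d04 d24 d34 d02 d03 d23 F
      (by linarith) (by linarith) (by linarith) (by linarith) (by linarith) (by linarith) (by linarith) (by linarith) (by linarith) (by linarith) (by linarith) (by linarith) (by linarith) (by linarith) (by linarith) (by linarith) (by linarith) (by linarith) (by linarith) (by linarith)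
    have pr := mul_nonneg hF (show 0 ≤ 2 * (d01 + d12 + d13 + d04 + d24 + d34) - 9 / 10 * (d01 + d02 + d03 + d04 + d12 + d13 + d14 + d23 + d24 + d34) by linarith)
    linarith [key, pr]
  by_cases pe23 : d23 + d01 + d04 + d14 ≤ d02 + d12 + d24 + d03 + d13 + d34
  swap
  · have key := facetA c23 c02 c12 c24 c03 c13 c34 c01 c04 c14
      d23 d02 d12 d24 d03 d13 d34 d01 d04 d14 F
      (by linarith) (by linarith) (by linarith) (by linarith) (by linarith) (by linarith) (by linarith) (by linarith) (by linarith) (by linarith) (by linarith) (by linarith) (by linarith) (by linarith) (by linarith) (by linarith) (by linarith) (by linarith) (by linarith) (by linarith)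
    have pr := mul_nonneg hF (show 0 ≤ 2 * (d02 + d12 + d24 + d03 + d13 + d34) - 9 / 10 * (d01 + d02 + d03 + d04 + d12 + d13 + d14 + d23 + d24 + d34) by linarith)
    linarith [key, pr]
  by_cases pe24 : d24 + d01 + d03 + d13 ≤ d02 + d12 + d23 + d04 + d14 + d34
  swap
  · have key := facetA c24 c02 c12 c23 c04 c14 c34 c01 c03 c13
      d24 d02 d12 d23 d04 d14 d34 d01 d03 d13 F
      (by linarith) (by linarith) (by linarith) (by linarith) (by linarith) (by linarith) (by linarith) (by linarith) (by linarith) (by linarith) (by linarith) (by linarith) (by linarith) (by linarith) (by linarith) (by linarith) (by linarith) (by linarith) (by linarith) (by linarith)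
    have pr := mul_nonneg hF (show 0 ≤ 2 * (d02 + d12 + d23 + d04 + d14 + d34) - 9 / 10 * (d01 + d02 + d03 + d04 + d12 + d13 + d14 + d23 + d24 + d34) by linarith)
    linarith [key, pr]
  by_cases pe34 : d34 + d01 + d02 + d12 ≤ d03 + d13 + d23 + d04 + d14 + d24
  swap
  · have key := facetA c34 c03 c13 c23 c04 c14 c24 c01 c02 c12
      d34 d03 d13 d23 d04 d14 d24 d01 d02 d12 F
      (by linarith) (by linarith) (by linarith) (by linarith) (by linarith) (by linarith) (by linarith) (by linarith) (by linarith) (by linarith) (by linarith) (by linarith) (by linarith) (by linarith) (by linarith) (by linarith) (by linarith) (by linarith) (by linarith) (by linarith)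
    have pr := mul_nonneg hF (show 0 ≤ 2 * (d03 + d13 + d23 + d04 + d14 + d24) - 9 / 10 * (d01 + d02 + d03 + d04 + d12 + d13 + d14 + d23 + d24 + d34) by linarith)
    linarith [key, pr]
  have key := cutCone5 c01 c02 c03 c04 c12 c13 c14 c23 c24 c34
    d01 d02 d03 d04 d12 d13 d14 d23 d24 d34 F
    hc01 hc02 hc03 hc04 hc12 hc13 hc14 hc23 hc24 hc34 hS0 hS1 hS2 hS3 hS01 hS02 hS03 hS12 hS13 hS23 hS012 hS013 hS023 hS123 hS0123 t01_2 t01_3 t01_4 t02_1 t02_3 t02_4 t03_1 t03_2 t03_4 t04_1 t04_2 t04_3 t12_0 t12_3 t12_4 t13_0 t13_2 t13_4 t14_0 t14_2 t14_3 t23_0 t23_1 t23_4 t24_0 t24_1 t24_3 t34_0 t34_1 t34_2 pe01 pe02 pe03 pe04 pe12 pe13 pe14 pe23 pe24 pe34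
  have pr := mul_nonneg hF (show 0 ≤ d01 + d02 + d03 + d04 + d12 + d13 + d14 + d23 + d24 + d34 by linarith)
  linarith [key, pr]

end Vale.Agent.Lib.P318
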