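import Mathlib

/-!
Definitions for Uniform Sparsest Cut and its Goemans-Linial relaxation (problem P318).
-/

namespace Vale.Agent.Lib.P318

/-- Capacities on the vertex set `Fin n`: symmetric, nonnegative, zero on the diagonal. -/
def IsCapacity {n : ℕ} (c : Fin n → Fin n → ℝ) : Prop :=
  (∀ i j, c i j = c j i) ∧ (∀ i j, 0 ≤ c i j) ∧ ∀ i, c i i = 0

/-- The ratio `(∑_{i ∈ S, j ∉ S} c i j) / (|S| (n - |S|))` of the cut given by `S`. -/
noncomputable def cutRatio {n : ℕ} (c : Fin n → Fin n → ℝ) (S : Finset (Fin n)) : ℝ :=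
  (∑ i ∈ S, ∑ j ∈ Sᶜ, c i j) / ((S.card : ℝ) * ((n : ℝ) - (S.card : ℝ)))

/-- `Φ(c)`: the least cut ratio over nonempty proper subsets `S`. -/
noncomputable def sparsestCut {n : ℕ} (c : Fin n → Fin n → ℝ) : ℝ :=
  sInf {r : ℝ | ∃ S : Finset (Fin n), S.Nonempty ∧ S ≠ Finset.univ ∧ r = cutRatio c S}

/-- Negative-type semimetrics on `Fin n`: squared Euclidean distances of points of `ℝ^n`
that satisfy all triangle inequalities. -/
def IsNegTypeSemimetric {n : ℕ} (d : Fin n → Fin n → ℝ) : Prop :=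
  (∃ x : Fin n → EuclideanSpace ℝ (Fin n), ∀ i j, d i j = ‖x i - x j‖ ^ 2) ∧
    ∀ i j k, d i k ≤ d i j + d j k

/-- The sum `∑_{i < j} w i j` over unordered pairs. -/
noncomputable def pairSum {n : ℕ} (w : Fin n → Fin n → ℝ) : ℝ :=
  ∑ i, ∑ j, if i < j then w i j else 0

/-- The value `GL(c)` of the Goemans-Linial relaxation. -/
noncomputable def glValue {n : ℕ} (c : Fin n → Fin n → ℝ) : ℝ :=
  sInf {v : ℝ | ∃ d : Fin n → Fin n → ℝ, IsNegTypeSemimetric d ∧ pairSum d = 1 ∧
    v = pairSum (fun i j => c i j * d i j)}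

/-- The set of all ratios `Φ(c) / GL(c)` over capacities `c` on `n` vertices with `GL(c) > 0`;
the integrality gap `g(n)` is its supremum. -/
def gapSet (n : ℕ) : Set ℝ :=
  {r : ℝ | ∃ c : Fin n → Fin n → ℝ, IsCapacity c ∧ 0 < glValue c ∧ r = sparsestCut c / glValue c}

/-- The integrality gap `g(n)` of the Goemans-Linial relaxation for uniform demands. -/
noncomputable def gap (n : ℕ) : ℝ := sSup (gapSet n)

end Vale.Agent.Lib.P318
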