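import Vale.Agent.Lib.P318.Basic
import Vale.Agent.Lib.P318.Core5b

namespace Vale.Agent.Lib.P318

open Finset

theorem pairSum_five (w : Fin 5 → Fin 5 → ℝ) : pairSum w =
    w 0 1 + w 0 2 + w 0 3 + w 0 4 + w 1 2 + w 1 3 + w 1 4 + w 2 3 + w 2 4 + w 3 4 := by
  simp [pairSum, Fin.sum_univ_five]
  ring

theorem negType_ineq {E : Type*} [NormedAddCommGroup E] [InnerProductSpace ℝ E] (u v a b c : E) :
    9 * ‖u - v‖ ^ 2 + 4 * (‖a - b‖ ^ 2 + ‖a - c‖ ^ 2 + ‖b - c‖ ^ 2) ≤
      6 * (‖u - a‖ ^ 2 + ‖u - b‖ ^ 2 + ‖u - c‖ ^ 2 + ‖v - a‖ ^ 2 + ‖v - b‖ ^ 2 + ‖v - c‖ ^ 2) := by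
  have h := real_inner_self_nonneg (x := (2:ℝ) • a + (2:ℝ) • b + (2:ℝ) • c - (3:ℝ) • u - (3:ℝ) • v)
  simp only [← real_inner_self_eq_norm_sq, inner_sub_left, inner_sub_right, inner_add_left,
    inner_add_right, inner_smul_left, inner_smul_right, real_inner_comm] at h ⊢
  simp only [conj_trivial] at h
  have e1 := real_inner_comm a b
  have e2 := real_inner_comm a c
  have e3 := real_inner_comm b c
  have e4 := real_inner_comm u v
  have e5 := real_inner_comm u a
  have e6 := real_inner_comm u b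
  have e7 := real_inner_comm u c
  have e8 := real_inner_comm v a
  have e9 := real_inner_comm v b
  have e10 := real_inner_comm v c
  linarith

theorem mul_sparsestCut_le {n : ℕ} {c : Fin n → Fin n → ℝ} (hc : IsCapacity c) {S : Finset (Fin n)}
    (h1 : S.Nonempty) (h2 : S ≠ Finset.univ) :
    (S.card : ℝ) * ((n : ℝ) - (S.card : ℝ)) * sparsestCut c ≤ ∑ i ∈ S, ∑ j ∈ Sᶜ, c i j := by
  have h := sparsestCut_le hc h1 h2
  unfold cutRatio at h
  have hcard1 : 0 < S.card := Finset.card_pos.2 h1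
  have hcard2 : S.card < n := card_lt_of_ne_univ h2
  have hpos : 0 < (S.card : ℝ) * ((n : ℝ) - (S.card : ℝ)) := by
    apply mul_pos (by exact_mod_cast hcard1)
    have : (S.card : ℝ) < n := by exact_mod_cast hcard2
    linarith
  rw [le_div_iff₀ hpos] at h
  linarith

set_option maxHeartbeats 1600000 in
/-- On five vertices, `(9/10) Φ(c) ≤ GL(c)`. -/
theorem five_upper (c : Fin 5 → Fin 5 → ℝ) (hc : IsCapacity c) :
    9 / 10 * sparsestCut c ≤ glValue c := by
  apply le_glValue (exists_feasible (by norm_num))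
  intro d hd h1
  rw [pairSum_five] at h1 ⊢
  obtain ⟨x, hx⟩ := hd.1
  have sc01 := hc.1 1 0
  have sd01 := hd.symm 1 0
  have sc02 := hc.1 2 0
  have sd02 := hd.symm 2 0
  have sc03 := hc.1 3 0
  have sd03 := hd.symm 3 0
  have sc04 := hc.1 4 0
  have sd04 := hd.symm 4 0
  have sc12 := hc.1 2 1
  have sd12 := hd.symm 2 1
  have sc13 := hc.1 3 1
  have sd13 := hd.symm 3 1
  have sc14 := hc.1 4 1
  have sd14 := hd.symm 4 1
  have sc23 := hc.1 3 2
  have sd23 := hd.symm 3 2
  have sc24 := hc.1 4 2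
  have sd24 := hd.symm 4 2
  have sc34 := hc.1 4 3
  have sd34 := hd.symm 4 3
  have hS0 : 4 * sparsestCut c ≤ c 0 1 + c 0 2 + c 0 3 + c 0 4 := by
    have h := mul_sparsestCut_le hc (S := {0}) (by decide) (by decide)
    have e : ({0} : Finset (Fin 5))ᶜ = {1, 2, 3, 4} := by decide
    rw [e] at h
    simp at h
    norm_num at h
    linarith
  have hS1 : 4 * sparsestCut c ≤ c 0 1 + c 1 2 + c 1 3 + c 1 4 := by
    have h := mul_sparsestCut_le hc (S := {1}) (by decide) (by decide)
    have e : ({1} : Finset (Fin 5))ᶜ = {0, 2, 3, 4} := by decide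
    rw [e] at h
    simp at h
    norm_num at h
    linarith
  have hS2 : 4 * sparsestCut c ≤ c 0 2 + c 1 2 + c 2 3 + c 2 4 := by
    have h := mul_sparsestCut_le hc (S := {2}) (by decide) (by decide)
    have e : ({2} : Finset (Fin 5))ᶜ = {0, 1, 3, 4} := by decide
    rw [e] at h
    simp at h
    norm_num at h
    linarith
  have hS3 : 4 * sparsestCut c ≤ c 0 3 + c 1 3 + c 2 3 + c 3 4 := by
    have h := mul_sparsestCut_le hc (S := {3}) (by decide) (by decide)
    have e : ({3} : Finset (Fin 5))ᶜ = {0, 1, 2, 4} := by decide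
    rw [e] at h
    simp at h
    norm_num at h
    linarith
  have hS01 : 6 * sparsestCut c ≤ c 0 2 + c 0 3 + c 0 4 + c 1 2 + c 1 3 + c 1 4 := by
    have h := mul_sparsestCut_le hc (S := {0, 1}) (by decide) (by decide)
    have e : ({0, 1} : Finset (Fin 5))ᶜ = {2, 3, 4} := by decide
    rw [e] at h
    simp at h
    norm_num at h
    linarith
  have hS02 : 6 * sparsestCut c ≤ c 0 1 + c 0 3 + c 0 4 + c 1 2 + c 2 3 + c 2 4 := by
    have h := mul_sparsestCut_le hc (S := {0, 2}) (by decide) (by decide)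
    have e : ({0, 2} : Finset (Fin 5))ᶜ = {1, 3, 4} := by decide
    rw [e] at h
    simp at h
    norm_num at h
    linarith
  have hS03 : 6 * sparsestCut c ≤ c 0 1 + c 0 2 + c 0 4 + c 1 3 + c 2 3 + c 3 4 := by
    have h := mul_sparsestCut_le hc (S := {0, 3}) (by decide) (by decide)
    have e : ({0, 3} : Finset (Fin 5))ᶜ = {1, 2, 4} := by decide
    rw [e] at h
    simp at h
    norm_num at h
    linarith
  have hS12 : 6 * sparsestCut c ≤ c 0 1 + c 1 3 + c 1 4 + c 0 2 + c 2 3 + c 2 4 := by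
    have h := mul_sparsestCut_le hc (S := {1, 2}) (by decide) (by decide)
    have e : ({1, 2} : Finset (Fin 5))ᶜ = {0, 3, 4} := by decide
    rw [e] at h
    simp at h
    norm_num at h
    linarith
  have hS13 : 6 * sparsestCut c ≤ c 0 1 + c 1 2 + c 1 4 + c 0 3 + c 2 3 + c 3 4 := by
    have h := mul_sparsestCut_le hc (S := {1, 3}) (by decide) (by decide)
    have e : ({1, 3} : Finset (Fin 5))ᶜ = {0, 2, 4} := by decide
    rw [e] at h
    simp at h
    norm_num at h
    linarith
  have hS23 : 6 * sparsestCut c ≤ c 0 2 + c 1 2 + c 2 4 + c 0 3 + c 1 3 + c 3 4 := by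
    have h := mul_sparsestCut_le hc (S := {2, 3}) (by decide) (by decide)
    have e : ({2, 3} : Finset (Fin 5))ᶜ = {0, 1, 4} := by decide
    rw [e] at h
    simp at h
    norm_num at h
    linarith
  have hS012 : 6 * sparsestCut c ≤ c 0 3 + c 0 4 + c 1 3 + c 1 4 + c 2 3 + c 2 4 := by
    have h := mul_sparsestCut_le hc (S := {0, 1, 2}) (by decide) (by decide)
    have e : ({0, 1, 2} : Finset (Fin 5))ᶜ = {3, 4} := by decide
    rw [e] at h
    simp at h
    norm_num at h
    linarith
  have hS013 : 6 * sparsestCut c ≤ c 0 2 + c 0 4 + c 1 2 + c 1 4 + c 2 3 + c 3 4 := by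
    have h := mul_sparsestCut_le hc (S := {0, 1, 3}) (by decide) (by decide)
    have e : ({0, 1, 3} : Finset (Fin 5))ᶜ = {2, 4} := by decide
    rw [e] at h
    simp at h
    norm_num at h
    linarith
  have hS023 : 6 * sparsestCut c ≤ c 0 1 + c 0 4 + c 1 2 + c 2 4 + c 1 3 + c 3 4 := by
    have h := mul_sparsestCut_le hc (S := {0, 2, 3}) (by decide) (by decide)
    have e : ({0, 2, 3} : Finset (Fin 5))ᶜ = {1, 4} := by decide
    rw [e] at h
    simp at h
    norm_num at h
    linarith
  have hS123 : 6 * sparsestCut c ≤ c 0 1 + c 1 4 + c 0 2 + c 2 4 + c 0 3 + c 3 4 := by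
    have h := mul_sparsestCut_le hc (S := {1, 2, 3}) (by decide) (by decide)
    have e : ({1, 2, 3} : Finset (Fin 5))ᶜ = {0, 4} := by decide
    rw [e] at h
    simp at h
    norm_num at h
    linarith
  have hS0123 : 4 * sparsestCut c ≤ c 0 4 + c 1 4 + c 2 4 + c 3 4 := by
    have h := mul_sparsestCut_le hc (S := {0, 1, 2, 3}) (by decide) (by decide)
    have e : ({0, 1, 2, 3} : Finset (Fin 5))ᶜ = {4} := by decide
    rw [e] at h
    simp at h
    norm_num at h
    linarith
  have key := core5 (c 0 1) (c 0 2) (c 0 3) (c 0 4) (c 1 2) (c 1 3) (c 1 4) (c 2 3) (c 2 4) (c 3 4)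
    (d 0 1) (d 0 2) (d 0 3) (d 0 4) (d 1 2) (d 1 3) (d 1 4) (d 2 3) (d 2 4) (d 3 4) (sparsestCut c)
    (sparsestCut_nonneg hc (by norm_num))
    (hc.2.1 0 1)
    (hc.2.1 0 2)
    (hc.2.1 0 3)
    (hc.2.1 0 4)
    (hc.2.1 1 2)
    (hc.2.1 1 3)
    (hc.2.1 1 4)
    (hc.2.1 2 3)
    (hc.2.1 2 4)
    (hc.2.1 3 4)
    hS0
    hS1
    hS2
    hS3
    hS01
    hS02
    hS03
    hS12
    hS13
    hS23
    hS012
    hS013
    hS023
    hS123
    hS0123
    (by have := hd.2 0 2 1; linarith)
    (by have := hd.2 0 3 1; linarith)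
    (by have := hd.2 0 4 1; linarith)
    (by have := hd.2 0 1 2; linarith)
    (by have := hd.2 0 3 2; linarith)
    (by have := hd.2 0 4 2; linarith)
    (by have := hd.2 0 1 3; linarith)
    (by have := hd.2 0 2 3; linarith)
    (by have := hd.2 0 4 3; linarith)
    (by have := hd.2 0 1 4; linarith)
    (by have := hd.2 0 2 4; linarith)
    (by have := hd.2 0 3 4; linarith)
    (by have := hd.2 1 0 2; linarith)
    (by have := hd.2 1 3 2; linarith)
    (by have := hd.2 1 4 2; linarith)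
    (by have := hd.2 1 0 3; linarith)
    (by have := hd.2 1 2 3; linarith)
    (by have := hd.2 1 4 3; linarith)
    (by have := hd.2 1 0 4; linarith)
    (by have := hd.2 1 2 4; linarith)
    (by have := hd.2 1 3 4; linarith)
    (by have := hd.2 2 0 3; linarith)
    (by have := hd.2 2 1 3; linarith)
    (by have := hd.2 2 4 3; linarith)
    (by have := hd.2 2 0 4; linarith)
    (by have := hd.2 2 1 4; linarith)
    (by have := hd.2 2 3 4; linarith)
    (by have := hd.2 3 0 4; linarith)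
    (by have := hd.2 3 1 4; linarith)
    (by have := hd.2 3 2 4; linarith)
    (by have := negType_ineq (x 0) (x 1) (x 2) (x 3) (x 4); simp only [← hx] at this; linarith)
    (by have := negType_ineq (x 0) (x 2) (x 1) (x 3) (x 4); simp only [← hx] at this; linarith)
    (by have := negType_ineq (x 0) (x 3) (x 1) (x 2) (x 4); simp only [← hx] at this; linarith)
    (by have := negType_ineq (x 0) (x 4) (x 1) (x 2) (x 3); simp only [← hx] at this; linarith)
    (by have := negType_ineq (x 1) (x 2) (x 0) (x 3) (x 4); simp only [← hx] at this; linarith)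
    (by have := negType_ineq (x 1) (x 3) (x 0) (x 2) (x 4); simp only [← hx] at this; linarith)
    (by have := negType_ineq (x 1) (x 4) (x 0) (x 2) (x 3); simp only [← hx] at this; linarith)
    (by have := negType_ineq (x 2) (x 3) (x 0) (x 1) (x 4); simp only [← hx] at this; linarith)
    (by have := negType_ineq (x 2) (x 4) (x 0) (x 1) (x 3); simp only [← hx] at this; linarith)
    (by have := negType_ineq (x 3) (x 4) (x 0) (x 1) (x 2); simp only [← hx] at this; linarith)
  rw [h1] at key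
  linarith

end Vale.Agent.Lib.P318
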