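import Vale.Agent.Lib.P318.Small

namespace Vale.Agent.Lib.P318

open Finset

/-- unit capacities on the complete bipartite graph with sides `{0,1,2}` and `{3,4}`. -/
noncomputable def k23 : Fin 5 → Fin 5 → ℝ := fun i j => if (i.val < 3) = (j.val < 3) then 0 else 1

theorem k23_cap : IsCapacity k23 := by
  refine ⟨?_, ?_, ?_⟩
  · intro i j; unfold k23; fin_cases i <;> fin_cases j <;> simp
  · intro i j; unfold k23; split_ifs <;> norm_num
  · intro i; simp [k23]

noncomputable def x23 : Fin 5 → EuclideanSpace ℝ (Fin 5) :=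
  ![!₂[0, 0, 0, 0, 0], !₂[1, 1, 2, 0, 0], !₂[2, -1, 1, 0, 0], !₂[1, 0, 1, 1, 0], !₂[1, 0, 1, -1, 0]]

noncomputable def d23 : Fin 5 → Fin 5 → ℝ := fun i j => ‖x23 i - x23 j‖ ^ 2

noncomputable def m23 : Fin 5 → Fin 5 → ℝ :=
  ![![0, 6, 6, 3, 3], ![6, 0, 6, 3, 3], ![6, 6, 0, 3, 3], ![3, 3, 3, 0, 4], ![3, 3, 3, 4, 0]]

theorem d23_eq (i j : Fin 5) : d23 i j = m23 i j := by
  unfold d23
  rw [EuclideanSpace.norm_eq, Real.sq_sqrt (by positivity)]
  fin_cases i <;> fin_cases j <;> simp [x23, m23, Fin.sum_univ_five] <;> norm_num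

theorem d23_negType : IsNegTypeSemimetric d23 := by
  refine ⟨⟨x23, fun i j => rfl⟩, ?_⟩
  intro i j k
  rw [d23_eq, d23_eq, d23_eq]
  fin_cases i <;> fin_cases j <;> fin_cases k <;> simp [m23] <;> norm_num

theorem cut_sum_eq {n : ℕ} (c : Fin n → Fin n → ℝ) (S : Finset (Fin n)) :
    ∑ i ∈ S, ∑ j ∈ Sᶜ, c i j
      = ∑ i, ∑ j, (if i ∈ S then (1:ℝ) else 0) * ((if j ∈ S then (0:ℝ) else 1) * c i j) := by
  rw [← Finset.sum_filter_add_sum_filter_not univ (fun i => i ∈ S)]
  have e1 : ∑ i ∈ univ.filter (fun i => ¬ i ∈ S),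
      ∑ j, (if i ∈ S then (1:ℝ) else 0) * ((if j ∈ S then (0:ℝ) else 1) * c i j) = 0 := by
    apply Finset.sum_eq_zero; intro i hi
    have : i ∉ S := (Finset.mem_filter.1 hi).2
    simp [this]
  rw [e1, add_zero]
  have e2 : univ.filter (fun i => i ∈ S) = S := by ext i; simp
  rw [e2]
  apply Finset.sum_congr rfl; intro i hi
  simp only [hi, if_true, one_mul]
  rw [← Finset.sum_add_sum_compl S]
  have e3 : ∑ j ∈ S, (if j ∈ S then (0:ℝ) else 1) * c i j = 0 := by
    apply Finset.sum_eq_zero; intro j hj; simp [hj]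
  rw [e3, zero_add]
  apply Finset.sum_congr rfl; intro j hj
  have : j ∉ S := Finset.mem_compl.1 hj
  simp [this]

theorem card_eq_sum {n : ℕ} (S : Finset (Fin n)) :
    (S.card : ℝ) = ∑ i, if i ∈ S then (1:ℝ) else 0 := by
  simp

theorem k23_cut (S : Finset (Fin 5)) (h1 : S.Nonempty) (h2 : S ≠ univ) :
    1 / 2 ≤ cutRatio k23 S := by
  unfold cutRatio
  rw [cut_sum_eq, card_eq_sum]
  simp only [Fin.sum_univ_five]
  by_cases m0 : (0 : Fin 5) ∈ S <;> by_cases m1 : (1 : Fin 5) ∈ S <;>
  by_cases m2 : (2 : Fin 5) ∈ S <;> by_cases m3 : (3 : Fin 5) ∈ S <;>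
  by_cases m4 : (4 : Fin 5) ∈ S <;>
  first
  | (exfalso
     apply h2
     ext i
     fin_cases i <;> simp [m0, m1, m2, m3, m4]
     done)
  | (exfalso
     obtain ⟨i, hi⟩ := h1
     fin_cases i <;> simp_all
     done)
  | (simp [m0, m1, m2, m3, m4, k23]
     try norm_num)

theorem k23_sparsestCut : sparsestCut k23 = 1 / 2 := by
  apply le_antisymm
  · have h := mul_sparsestCut_le k23_cap (S := {0}) (by decide) (by decide)
    have e : ({0} : Finset (Fin 5))ᶜ = {1, 2, 3, 4} := by decide
    rw [e] at h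
    simp [k23] at h
    norm_num at h
    linarith
  · exact le_sparsestCut (exists_proper (by norm_num)) k23_cut

theorem k23_glValue : glValue k23 = 9 / 20 := by
  apply le_antisymm
  · have hsum : pairSum d23 = 40 := by
      rw [pairSum_five]; simp only [d23_eq]; simp [m23]; norm_num
    have h := glValue_le_of_negType k23_cap d23_negType (by rw [hsum]; norm_num)
    have hsum2 : pairSum (fun i j => k23 i j * d23 i j) = 18 := by
      rw [pairSum_five]; simp only [d23_eq]; simp [m23, k23]; norm_num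
    rw [hsum, hsum2] at h
    linarith
  · have h := five_upper k23 k23_cap
    rw [k23_sparsestCut] at h
    linarith

/-- unit capacities on the complete graph. -/
noncomputable def ones (n : ℕ) : Fin n → Fin n → ℝ := fun i j => if i = j then 0 else 1

theorem ones_cap (n : ℕ) : IsCapacity (ones n) := by
  refine ⟨?_, ?_, ?_⟩
  · intro i j; unfold ones; by_cases h : i = j
    · simp [h]
    · simp [h, Ne.symm h]
  · intro i j; unfold ones; split_ifs <;> norm_num
  · intro i; simp [ones]

theorem ones_glValue {n : ℕ} (hn : 2 ≤ n) : glValue (ones n) = 1 := by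
  have key : ∀ d : Fin n → Fin n → ℝ, pairSum (fun i j => ones n i j * d i j) = pairSum d := by
    intro d
    unfold pairSum
    apply Finset.sum_congr rfl; intro i _
    apply Finset.sum_congr rfl; intro j _
    split_ifs with h
    · simp [ones, h.ne]
    · rfl
  apply le_antisymm
  · obtain ⟨d, hd, h1⟩ := exists_feasible hn
    have h := glValue_le_of_negType (ones_cap n) hd (by rw [h1]; norm_num)
    rw [key, h1] at h
    linarith
  · apply le_glValue (exists_feasible hn)
    intro d _ h1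
    rw [key, h1]

theorem gapSet_small {n : ℕ} (h2 : 2 ≤ n) (h4 : n ≤ 4) : gapSet n = {1} := by
  ext r
  constructor
  · rintro ⟨c, hc, hpos, rfl⟩
    rw [glValue_eq_sparsestCut_of_le_four h2 h4 c hc] at hpos ⊢
    simp [div_self hpos.ne']
  · rintro rfl
    refine ⟨ones n, ones_cap n, by rw [ones_glValue h2]; norm_num, ?_⟩
    rw [← glValue_eq_sparsestCut_of_le_four h2 h4 _ (ones_cap n), ones_glValue h2]
    norm_num

theorem gapSet_five : IsGreatest (gapSet 5) (10 / 9) := by
  constructor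
  · refine ⟨k23, k23_cap, by rw [k23_glValue]; norm_num, ?_⟩
    rw [k23_glValue, k23_sparsestCut]; norm_num
  · rintro r ⟨c, hc, hpos, rfl⟩
    rw [div_le_iff₀ hpos]
    have := five_upper c hc
    linarith

end Vale.Agent.Lib.P318
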