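import Vale.Agent.Lib.P318.K23

/-!
The complete bipartite graph `K_{2,q}` on `q + 2` vertices: a strict integrality gap for all `q ≥ 3`.
-/

namespace Vale.Agent.Lib.P318

open Finset

theorem sum_two_succ {q : ℕ} (F : Fin (q+2) → ℝ) :
    ∑ i, F i = F 0 + F 1 + ∑ b : Fin q, F b.succ.succ := by
  rw [Fin.sum_univ_succ, Fin.sum_univ_succ]
  simp [add_assoc]

theorem ss_eq_zero {q : ℕ} (b : Fin q) : (b.succ.succ = (0 : Fin (q+2))) ↔ False := by
  simp [Fin.ext_iff]

theorem ss_eq_one {q : ℕ} (b : Fin q) : (b.succ.succ = (1 : Fin (q+2))) ↔ False := by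
  simp [Fin.ext_iff]

theorem zero_eq_ss {q : ℕ} (b : Fin q) : ((0 : Fin (q+2)) = b.succ.succ) ↔ False := by
  simp [Fin.ext_iff]

theorem one_eq_ss {q : ℕ} (b : Fin q) : ((1 : Fin (q+2)) = b.succ.succ) ↔ False := by
  simp [Fin.ext_iff]

theorem norm_sq_toLp_sub {n : ℕ} (u v : Fin n → ℝ) :
    ‖(WithLp.toLp 2 u : EuclideanSpace ℝ (Fin n)) - WithLp.toLp 2 v‖ ^ 2 = ∑ k, (u k - v k) ^ 2 := by
  rw [EuclideanSpace.real_norm_sq_eq]
  simp

/-- unit capacities on `K_{2,q}`: vertices `0, 1` against the other `q` vertices. -/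
noncomputable def k2 (q : ℕ) : Fin (q+2) → Fin (q+2) → ℝ :=
  fun i j => if (i.val < 2) = (j.val < 2) then 0 else 1

theorem k2_cap (q : ℕ) : IsCapacity (k2 q) := by
  refine ⟨?_, ?_, ?_⟩
  · intro i j; unfold k2
    by_cases hi : i.val < 2 <;> by_cases hj : j.val < 2 <;> simp [hi, hj]
  · intro i j; unfold k2; split_ifs <;> norm_num
  · intro i; simp [k2]

/-- coordinates of the points realizing the metric -/
noncomputable def yq (q : ℕ) (i k : Fin (q+2)) : ℝ :=
  if i.val = 0 then (if k.val = 0 then (Real.sqrt q)⁻¹ else if k.val = 1 then 0 else (q:ℝ)⁻¹)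
  else if i.val = 1 then (if k.val = 0 then -(Real.sqrt q)⁻¹ else if k.val = 1 then 0 else (q:ℝ)⁻¹)
  else (if k = i then 1 else 0)

/-- the semimetric: `4/q` between the two special vertices, `2` between two other vertices,
`1` across. -/
noncomputable def dq (q : ℕ) (i j : Fin (q+2)) : ℝ :=
  if i = j then 0 else if i.val < 2 then (if j.val < 2 then 4 / (q:ℝ) else 1)
  else (if j.val < 2 then 1 else 2)

theorem y01 (q : ℕ) (hq : 0 < q) : ∑ k, (yq q 0 k - yq q 1 k) ^ 2 = 4 / q := by
  rw [sum_two_succ]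
  simp [yq]
  have : (0:ℝ) ≤ q := Nat.cast_nonneg q
  have h2 : (Real.sqrt q) ^ 2 = q := Real.sq_sqrt this
  have hq' : (q:ℝ) ≠ 0 := by positivity
  have hs : Real.sqrt q ≠ 0 := by positivity
  field_simp
  nlinarith

theorem sum_aux (q : ℕ) (hq : 0 < q) (b : Fin q) :
    ∑ x : Fin q, ((q:ℝ)⁻¹ - if x = b then 1 else 0) ^ 2 = 1 - (q:ℝ)⁻¹ := by
  have h : ∀ x : Fin q, ((q:ℝ)⁻¹ - if x = b then 1 else 0) ^ 2
      = ((q:ℝ)⁻¹) ^ 2 + if x = b then (1 - 2 * (q:ℝ)⁻¹) else 0 := by
    intro x; split_ifs <;> ring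
  simp only [h, Finset.sum_add_distrib, Finset.sum_const, Finset.sum_ite_eq', Finset.mem_univ,
    if_true, Finset.card_univ, Fintype.card_fin, nsmul_eq_mul]
  have hq' : (q:ℝ) ≠ 0 := by positivity
  field_simp
  ring

theorem y0b (q : ℕ) (hq : 0 < q) (b : Fin q) : ∑ k, (yq q 0 k - yq q b.succ.succ k) ^ 2 = 1 := by
  rw [sum_two_succ]
  simp [yq, ss_eq_zero, ss_eq_one, zero_eq_ss, one_eq_ss]
  rw [sum_aux q hq b]
  have h2 : (Real.sqrt q) ^ 2 = q := Real.sq_sqrt (Nat.cast_nonneg q)
  try rw [h2]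
  ring

theorem y1b (q : ℕ) (hq : 0 < q) (b : Fin q) : ∑ k, (yq q 1 k - yq q b.succ.succ k) ^ 2 = 1 := by
  rw [sum_two_succ]
  simp [yq, ss_eq_zero, ss_eq_one, zero_eq_ss, one_eq_ss]
  rw [sum_aux q hq b]
  have h2 : (Real.sqrt q) ^ 2 = q := Real.sq_sqrt (Nat.cast_nonneg q)
  try rw [h2]
  ring

theorem ybb (q : ℕ) (b b' : Fin q) (h : b ≠ b') :
    ∑ k, (yq q b.succ.succ k - yq q b'.succ.succ k) ^ 2 = 2 := by
  rw [sum_two_succ]
  simp [yq, ss_eq_zero, ss_eq_one, zero_eq_ss, one_eq_ss]
  have h1 : ∀ x : Fin q, ((if x = b then (1:ℝ) else 0) - if x = b' then 1 else 0) ^ 2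
      = (if x = b then 1 else 0) + if x = b' then 1 else 0 := by
    intro x
    by_cases hx : x = b
    · subst hx; simp [h]
    · by_cases hx' : x = b'
      · subst hx'; simp [hx]
      · simp [hx, hx']
  simp only [h1, Finset.sum_add_distrib, Finset.sum_ite_eq', Finset.mem_univ, if_true]
  norm_num

theorem sum_sq_symm (q : ℕ) (i j : Fin (q+2)) :
    ∑ k, (yq q i k - yq q j k) ^ 2 = ∑ k, (yq q j k - yq q i k) ^ 2 := by
  apply Finset.sum_congr rfl; intro k _; ring

theorem dq_eq (q : ℕ) (hq : 0 < q) (i j : Fin (q+2)) :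
    dq q i j = ∑ k, (yq q i k - yq q j k) ^ 2 := by
  induction i using Fin.cases with
  | zero =>
    induction j using Fin.cases with
    | zero => simp [dq]
    | succ j =>
      induction j using Fin.cases with
      | zero =>
        have := y01 q hq
        simp only [Fin.succ_zero_eq_one] at *
        rw [this]; simp [dq]
      | succ b =>
        rw [y0b q hq b]
        simp [dq, Fin.ext_iff]
  | succ i =>
    induction i using Fin.cases with
    | zero =>
      induction j using Fin.cases with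
      | zero =>
        have := y01 q hq
        simp only [Fin.succ_zero_eq_one] at *
        rw [sum_sq_symm, this]; simp [dq]
      | succ j =>
        induction j using Fin.cases with
        | zero => simp [dq]
        | succ b =>
          have := y1b q hq b
          simp only [Fin.succ_zero_eq_one] at *
          rw [this]
          simp [dq, Fin.ext_iff]
    | succ b =>
      induction j using Fin.cases with
      | zero =>
        rw [sum_sq_symm, y0b q hq b]
        simp [dq, Fin.ext_iff]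
      | succ j =>
        induction j using Fin.cases with
        | zero =>
          have := y1b q hq b
          simp only [Fin.succ_zero_eq_one] at *
          rw [sum_sq_symm, this]
          simp [dq, Fin.ext_iff]
        | succ b' =>
          by_cases h : b = b'
          · subst h; simp [dq]
          · rw [ybb q b b' h]
            simp [dq, h]

theorem dq_tri (q : ℕ) (hq : 2 ≤ q) (i j k : Fin (q+2)) : dq q i k ≤ dq q i j + dq q j k := by
  have h1 : (0:ℝ) ≤ 4 / (q:ℝ) := by positivity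
  have h2 : 4 / (q:ℝ) ≤ 2 := by
    have : (2:ℝ) ≤ q := by exact_mod_cast hq
    rw [div_le_iff₀ (by linarith)]
    linarith
  unfold dq
  by_cases hij : i = j
  · subst hij; simp
  · by_cases hjk : j = k
    · subst hjk; simp
    · by_cases hik : i = k
      · subst hik
        simp only [if_true, hij, hjk, if_false]
        split_ifs <;> linarith
      · simp only [hij, hjk, hik, if_false]
        split_ifs <;> linarith

theorem dq_negType (q : ℕ) (hq : 2 ≤ q) : IsNegTypeSemimetric (dq q) := by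
  refine ⟨⟨fun i => WithLp.toLp 2 (yq q i), ?_⟩, dq_tri q hq⟩
  intro i j
  rw [norm_sq_toLp_sub, dq_eq q (by omega)]

theorem sum_ne_aux (q : ℕ) (b : Fin q) (v : ℝ) :
    ∑ x : Fin q, (if b = x then 0 else v) = ((q:ℝ) - 1) * v := by
  have h : ∀ x : Fin q, (if b = x then 0 else v) = v - if b = x then v else 0 := by
    intro x; split_ifs <;> ring
  simp only [h, Finset.sum_sub_distrib, Finset.sum_const, Finset.sum_ite_eq, Finset.mem_univ,
    if_true, Finset.card_univ, Fintype.card_fin, nsmul_eq_mul]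
  ring

theorem pairSum_dq (q : ℕ) (hq : 2 ≤ q) : pairSum (dq q) = (q:ℝ) ^ 2 + q + 4 / q := by
  have hd := dq_negType q hq
  have h := pairSum_eq_half (dq q) hd.symm hd.diag
  have e : ∑ i, ∑ j, dq q i j = 2 * ((q:ℝ) ^ 2 + q + 4 / q) := by
    rw [sum_two_succ]
    simp only [sum_two_succ (fun j => dq q _ j)]
    simp [dq, ss_eq_zero, ss_eq_one, zero_eq_ss, one_eq_ss, Finset.sum_add_distrib, sum_ne_aux]
    ring
  linarith

theorem pairSum_k2_dq (q : ℕ) (hq : 2 ≤ q) :
    pairSum (fun i j => k2 q i j * dq q i j) = 2 * (q:ℝ) := by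
  have hd := dq_negType q hq
  have h := pairSum_eq_half (fun i j => k2 q i j * dq q i j)
    (fun i j => by rw [(k2_cap q).1 i j, hd.symm i j]) (fun i => by rw [hd.diag]; ring)
  have e : ∑ i, ∑ j, k2 q i j * dq q i j = 4 * (q:ℝ) := by
    rw [sum_two_succ]
    simp only [sum_two_succ (fun j => k2 q _ j * dq q _ j)]
    simp [dq, k2, Fin.ext_iff]
    ring
  linarith

end Vale.Agent.Lib.P318
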