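import Vale.Agent.Lib.P318.K2q

namespace Vale.Agent.Lib.P318

open Finset

/-- the capacity of a cut of `K_{2,q}` in terms of an indicator function `s`. -/
theorem k2_cut_formula (q : ℕ) (s : Fin (q+2) → ℝ) :
    ∑ i, ∑ j, s i * ((1 - s j) * k2 q i j)
      = (s 0 + s 1) * ((q:ℝ) - ∑ b : Fin q, s b.succ.succ)
        + (∑ b : Fin q, s b.succ.succ) * (2 - s 0 - s 1) := by
  rw [sum_two_succ]
  simp only [sum_two_succ (fun j => s _ * ((1 - s j) * k2 q _ j))]
  simp [k2]
  have e1 : ∀ a : ℝ, ∑ x : Fin q, a * (1 - s x.succ.succ)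
      = a * ((q:ℝ) - ∑ b : Fin q, s b.succ.succ) := by
    intro a
    rw [← Finset.mul_sum, Finset.sum_sub_distrib]
    simp
  have e2 : ∑ x : Fin q, (s x.succ.succ * (1 - s 0) + s x.succ.succ * (1 - s 1))
      = (∑ b : Fin q, s b.succ.succ) * (2 - s 0 - s 1) := by
    rw [Finset.sum_mul]
    apply Finset.sum_congr rfl; intro x _; ring
  rw [e1, e1, e2]
  ring

theorem arith_mid (q β : ℕ) (hq : 3 ≤ q) (hβ : β ≤ q) :
    2 * ((1 + (β:ℝ)) * ((q:ℝ) + 1 - β)) ≤ (q:ℝ) * (q + 1) := by
  rcases Nat.lt_or_ge q 4 with h | h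
  · have : q = 3 := by omega
    subst this
    interval_cases β <;> norm_num
  · have h4 : (4:ℝ) ≤ q := by exact_mod_cast h
    nlinarith [sq_nonneg (2 * (β:ℝ) - q)]

theorem k2_cut (q : ℕ) (hq : 3 ≤ q) (S : Finset (Fin (q+2))) (h1 : S.Nonempty) (h2 : S ≠ univ) :
    2 / ((q:ℝ) + 1) ≤ cutRatio (k2 q) S := by
  have hcard1 : 0 < S.card := Finset.card_pos.2 h1
  have hcard2 : S.card < q + 2 := card_lt_of_ne_univ h2
  unfold cutRatio
  rw [cut_sum_eq]
  set s : Fin (q+2) → ℝ := fun i => if i ∈ S then (1:ℝ) else 0 with hs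
  have e1 : ∀ i j, (if i ∈ S then (1:ℝ) else 0) * ((if j ∈ S then (0:ℝ) else 1) * k2 q i j)
      = s i * ((1 - s j) * k2 q i j) := by
    intro i j
    simp only [hs]
    by_cases hj : j ∈ S <;> simp [hj]
  simp only [e1]
  rw [k2_cut_formula]
  set T : Finset (Fin q) := univ.filter (fun b => b.succ.succ ∈ S) with hT
  have hB : ∑ b : Fin q, s b.succ.succ = (T.card : ℝ) := by
    simp [hs, hT]
  have hTq : T.card ≤ q := by simpa using Finset.card_le_univ T
  have hcard : (S.card : ℝ) = s 0 + s 1 + (T.card : ℝ) := by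
    rw [card_eq_sum, sum_two_succ, ← hB]
  rw [hB]
  have hTq' : (T.card : ℝ) ≤ q := by exact_mod_cast hTq
  have hc1 : (0:ℝ) < S.card := by exact_mod_cast hcard1
  have hc2 : (S.card : ℝ) < (q:ℝ) + 2 := by exact_mod_cast hcard2
  have hq' : (3:ℝ) ≤ q := by exact_mod_cast hq
  have hden : 0 < (S.card : ℝ) * (((q + 2 : ℕ) : ℝ) - (S.card : ℝ)) := by
    apply mul_pos hc1
    push_cast
    linarith
  rw [div_le_div_iff₀ (by linarith) hden]
  push_cast
  have hβ0 : (0:ℝ) ≤ (T.card : ℝ) := Nat.cast_nonneg _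
  have hmid := arith_mid q T.card hq hTq
  rw [hcard] at hc1 hc2 ⊢
  by_cases m0 : (0 : Fin (q+2)) ∈ S <;> by_cases m1 : (1 : Fin (q+2)) ∈ S
  · have a0 : s 0 = 1 := by simp [hs, m0]
    have a1 : s 1 = 1 := by simp [hs, m1]
    rw [a0, a1] at hc1 hc2 ⊢
    have hlt : (T.card : ℝ) + 1 ≤ q := by
      have : T.card < q := by
        have : (T.card : ℝ) < q := by linarith
        exact_mod_cast this
      exact_mod_cast this
    nlinarith
  · have a0 : s 0 = 1 := by simp [hs, m0]
    have a1 : s 1 = 0 := by simp [hs, m1]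
    rw [a0, a1] at hc1 hc2 ⊢
    nlinarith
  · have a0 : s 0 = 0 := by simp [hs, m0]
    have a1 : s 1 = 1 := by simp [hs, m1]
    rw [a0, a1] at hc1 hc2 ⊢
    nlinarith
  · have a0 : s 0 = 0 := by simp [hs, m0]
    have a1 : s 1 = 0 := by simp [hs, m1]
    rw [a0, a1] at hc1 hc2 ⊢
    have hge : (1:ℝ) ≤ (T.card : ℝ) := by
      have : 0 < T.card := by
        have : (0:ℝ) < (T.card : ℝ) := by linarith
        exact_mod_cast this
      exact_mod_cast this
    nlinarith

theorem k2_sparsestCut (q : ℕ) (hq : 3 ≤ q) : 2 / ((q:ℝ) + 1) ≤ sparsestCut (k2 q) :=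
  le_sparsestCut (exists_proper (by omega)) (k2_cut q hq)

theorem k2_glValue_le (q : ℕ) (hq : 3 ≤ q) :
    glValue (k2 q) ≤ 2 * (q:ℝ) / ((q:ℝ) ^ 2 + q + 4 / q) := by
  have hpos : 0 < pairSum (dq q) := by
    rw [pairSum_dq q (by omega)]
    have : (3:ℝ) ≤ q := by exact_mod_cast hq
    positivity
  have h := glValue_le_of_negType (k2_cap q) (dq_negType q (by omega)) hpos
  rwa [pairSum_k2_dq q (by omega), pairSum_dq q (by omega)] at h

theorem k2_pairSum (q : ℕ) (d : Fin (q+2) → Fin (q+2) → ℝ) (hd : IsNegTypeSemimetric d) :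
    pairSum (fun i j => k2 q i j * d i j)
      = (∑ b : Fin q, d 0 b.succ.succ) + ∑ b : Fin q, d 1 b.succ.succ := by
  have h := pairSum_eq_half (fun i j => k2 q i j * d i j)
    (fun i j => by rw [(k2_cap q).1 i j, hd.symm i j]) (fun i => by rw [hd.diag]; ring)
  have e : ∑ i, ∑ j, k2 q i j * d i j
      = 2 * ((∑ b : Fin q, d 0 b.succ.succ) + ∑ b : Fin q, d 1 b.succ.succ) := by
    rw [sum_two_succ]
    simp only [sum_two_succ (fun j => k2 q _ j * d _ j)]
    simp [k2, Finset.sum_add_distrib]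
    have e0 : ∑ b : Fin q, d b.succ.succ 0 = ∑ b : Fin q, d 0 b.succ.succ :=
      Finset.sum_congr rfl (fun b _ => hd.symm _ _)
    have e1 : ∑ b : Fin q, d b.succ.succ 1 = ∑ b : Fin q, d 1 b.succ.succ :=
      Finset.sum_congr rfl (fun b _ => hd.symm _ _)
    rw [e0, e1]; ring
  linarith

theorem k2_glValue_pos (q : ℕ) (hq : 3 ≤ q) : 0 < glValue (k2 q) := by
  have hn : (0:ℝ) < ((q:ℝ) + 2) ^ 2 * 2 := by positivity
  apply lt_of_lt_of_le (show 0 < 1 / (((q:ℝ) + 2) ^ 2 * 2) by positivity)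
  apply le_glValue (exists_feasible (by omega))
  intro d hd h1
  rw [k2_pairSum q d hd]
  set P0 := ∑ b : Fin q, d 0 b.succ.succ with hP0
  set P1 := ∑ b : Fin q, d 1 b.succ.succ with hP1
  have p0 : ∀ b : Fin q, d 0 b.succ.succ ≤ P0 := fun b =>
    Finset.single_le_sum (f := fun b : Fin q => d 0 b.succ.succ) (fun x _ => hd.nonneg _ _)
      (Finset.mem_univ b)
  have p1 : ∀ b : Fin q, d 1 b.succ.succ ≤ P1 := fun b =>
    Finset.single_le_sum (f := fun b : Fin q => d 1 b.succ.succ) (fun x _ => hd.nonneg _ _)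
      (Finset.mem_univ b)
  have hP0n : 0 ≤ P0 := Finset.sum_nonneg (fun x _ => hd.nonneg _ _)
  have hP1n : 0 ≤ P1 := Finset.sum_nonneg (fun x _ => hd.nonneg _ _)
  have b0 : Fin q := ⟨0, by omega⟩
  have key : ∀ i j, d i j ≤ 2 * (P0 + P1) := by
    intro i j
    induction i using Fin.cases with
    | zero =>
      induction j using Fin.cases with
      | zero => rw [hd.diag]; linarith
      | succ j =>
        induction j using Fin.cases with
        | zero =>
          simp only [Fin.succ_zero_eq_one]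
          have t := hd.2 0 b0.succ.succ 1
          have := p0 b0
          have := p1 b0
          have := hd.symm b0.succ.succ 1
          linarith
        | succ b =>
          have := p0 b
          linarith
    | succ i =>
      induction i using Fin.cases with
      | zero =>
        simp only [Fin.succ_zero_eq_one]
        induction j using Fin.cases with
        | zero =>
          have t := hd.2 1 b0.succ.succ 0
          have := p0 b0
          have := p1 b0
          have := hd.symm b0.succ.succ 0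
          linarith
        | succ j =>
          induction j using Fin.cases with
          | zero => simp only [Fin.succ_zero_eq_one]; rw [hd.diag]; linarith
          | succ b =>
            have := p1 b
            linarith
      | succ b =>
        induction j using Fin.cases with
        | zero =>
          have := p0 b
          have := hd.symm b.succ.succ 0
          linarith
        | succ j =>
          induction j using Fin.cases with
          | zero =>
            simp only [Fin.succ_zero_eq_one]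
            have := p1 b
            have := hd.symm b.succ.succ 1
            linarith
          | succ b' =>
            have t := hd.2 b.succ.succ 0 b'.succ.succ
            have := p0 b
            have := p0 b'
            have := hd.symm b.succ.succ 0
            linarith
  have hsum : pairSum d ≤ ((q:ℝ) + 2) ^ 2 * (2 * (P0 + P1)) := by
    unfold pairSum
    calc ∑ i, ∑ j, (if i < j then d i j else 0)
        ≤ ∑ _i : Fin (q+2), ∑ _j : Fin (q+2), 2 * (P0 + P1) := by
          apply Finset.sum_le_sum; intro i _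
          apply Finset.sum_le_sum; intro j _
          split_ifs
          · exact key i j
          · linarith
      _ = ((q:ℝ) + 2) ^ 2 * (2 * (P0 + P1)) := by
          simp only [Finset.sum_const, Finset.card_univ, Fintype.card_fin, nsmul_eq_mul]
          push_cast
          ring
  rw [h1] at hsum
  rw [div_le_iff₀ hn]
  linarith

/-- For every `n ≥ 5` some instance on `n` vertices has ratio `Φ/GL > 1`. -/
theorem gapSet_gt_one (n : ℕ) (hn : 5 ≤ n) : ∃ r ∈ gapSet n, 1 < r := by
  obtain ⟨q, rfl⟩ : ∃ q, n = q + 2 := ⟨n - 2, by omega⟩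
  have hq : 3 ≤ q := by omega
  refine ⟨_, ⟨k2 q, k2_cap q, k2_glValue_pos q hq, rfl⟩, ?_⟩
  rw [lt_div_iff₀ (k2_glValue_pos q hq), one_mul]
  apply lt_of_le_of_lt (k2_glValue_le q hq)
  apply lt_of_lt_of_le _ (k2_sparsestCut q hq)
  have hq' : (3:ℝ) ≤ q := by exact_mod_cast hq
  have hq0 : (0:ℝ) < q := by linarith
  rw [div_lt_div_iff₀ (by positivity) (by linarith)]
  have : (0:ℝ) < 4 / q := by positivity
  nlinarith

/-- Explicit form: on `n ≥ 5` vertices some instance has ratio at least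
`1 + 4 / ((n-2)^2 (n-1))`. -/
theorem gapSet_explicit (n : ℕ) (hn : 5 ≤ n) :
    ∃ r ∈ gapSet n, 1 + 4 / (((n:ℝ) - 2) ^ 2 * ((n:ℝ) - 1)) ≤ r := by
  obtain ⟨q, rfl⟩ : ∃ q, n = q + 2 := ⟨n - 2, by omega⟩
  have hq : 3 ≤ q := by omega
  refine ⟨_, ⟨k2 q, k2_cap q, k2_glValue_pos q hq, rfl⟩, ?_⟩
  have hq' : (3:ℝ) ≤ q := by exact_mod_cast hq
  have hq0 : (0:ℝ) < q := by linarith
  rw [le_div_iff₀ (k2_glValue_pos q hq)]
  have h1 := k2_glValue_le q hq
  have h2 := k2_sparsestCut q hq
  have e1 : (((q + 2 : ℕ) : ℝ) - 2) = q := by push_cast; ring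
  have e2 : (((q + 2 : ℕ) : ℝ) - 1) = (q:ℝ) + 1 := by push_cast; ring
  rw [e1, e2]
  have hfac : 0 ≤ 1 + 4 / ((q:ℝ) ^ 2 * ((q:ℝ) + 1)) := by positivity
  calc (1 + 4 / ((q:ℝ) ^ 2 * ((q:ℝ) + 1))) * glValue (k2 q)
      ≤ (1 + 4 / ((q:ℝ) ^ 2 * ((q:ℝ) + 1)))
          * (2 * (q:ℝ) / ((q:ℝ) ^ 2 + q + 4 / q)) := mul_le_mul_of_nonneg_left h1 hfac
    _ = 2 / ((q:ℝ) + 1) := by
        have h3 : (q:ℝ) ^ 2 + q + 4 / q = ((q:ℝ) ^ 3 + (q:ℝ) ^ 2 + 4) / q := by
          field_simp
        have h4 : 1 + 4 / ((q:ℝ) ^ 2 * ((q:ℝ) + 1))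
            = ((q:ℝ) ^ 3 + (q:ℝ) ^ 2 + 4) / ((q:ℝ) ^ 2 * ((q:ℝ) + 1)) := by
          field_simp
        have h5 : (0:ℝ) < (q:ℝ) ^ 3 + (q:ℝ) ^ 2 + 4 := by positivity
        rw [h3, h4]
        field_simp
    _ ≤ sparsestCut (k2 q) := h2

end Vale.Agent.Lib.P318
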