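import Vale.Agent.Lib.P318.Five

namespace Vale.Agent.Lib.P318

open Finset

theorem core4a (c01 c02 c03 c12 c13 c23 d01 d02 d03 d12 d13 d23 F : ℝ)
    (h0 : 3 * F ≤ c01 + c02 + c03) (h1 : 3 * F ≤ c01 + c12 + c13)
    (h2 : 3 * F ≤ c02 + c12 + c23) (h3 : 3 * F ≤ c03 + c13 + c23)
    (h01 : 4 * F ≤ c02 + c03 + c12 + c13) (h02 : 4 * F ≤ c01 + c03 + c12 + c23)
    (t0 : d12 ≤ d01 + d02) (t1 : d03 ≤ d01 + d13) (t2 : d03 ≤ d02 + d23) (t3 : d12 ≤ d13 + d23)
    (m1 : d01 + d23 ≤ d03 + d12) (m2 : d02 + d13 ≤ d03 + d12) :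
    F * (d01 + d02 + d03 + d12 + d13 + d23) ≤
      c01 * d01 + c02 * d02 + c03 * d03 + c12 * d12 + c13 * d13 + c23 * d23 := by
  have p0 := mul_nonneg (sub_nonneg.2 t0) (sub_nonneg.2 h0)
  have p1 := mul_nonneg (sub_nonneg.2 t1) (sub_nonneg.2 h1)
  have p2 := mul_nonneg (sub_nonneg.2 t2) (sub_nonneg.2 h2)
  have p3 := mul_nonneg (sub_nonneg.2 t3) (sub_nonneg.2 h3)
  have p4 := mul_nonneg (sub_nonneg.2 m1) (sub_nonneg.2 h01)
  have p5 := mul_nonneg (sub_nonneg.2 m2) (sub_nonneg.2 h02)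
  linarith

theorem core4 (c01 c02 c03 c12 c13 c23 d01 d02 d03 d12 d13 d23 F : ℝ)
    (h0 : 3 * F ≤ c01 + c02 + c03) (h1 : 3 * F ≤ c01 + c12 + c13)
    (h2 : 3 * F ≤ c02 + c12 + c23) (h3 : 3 * F ≤ c03 + c13 + c23)
    (h01 : 4 * F ≤ c02 + c03 + c12 + c13) (h02 : 4 * F ≤ c01 + c03 + c12 + c23)
    (h03 : 4 * F ≤ c01 + c02 + c13 + c23)
    (t01_2 : d01 ≤ d02 + d12) (t01_3 : d01 ≤ d03 + d13) (t02_1 : d02 ≤ d01 + d12)
    (t02_3 : d02 ≤ d03 + d23) (t03_1 : d03 ≤ d01 + d13) (t03_2 : d03 ≤ d02 + d23)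
    (t12_0 : d12 ≤ d01 + d02) (t12_3 : d12 ≤ d13 + d23) (t13_0 : d13 ≤ d01 + d03)
    (t13_2 : d13 ≤ d12 + d23) (t23_0 : d23 ≤ d02 + d03) (t23_1 : d23 ≤ d12 + d13) :
    F * (d01 + d02 + d03 + d12 + d13 + d23) ≤
      c01 * d01 + c02 * d02 + c03 * d03 + c12 * d12 + c13 * d13 + c23 * d23 := by
  rcases le_total (d01 + d23) (d03 + d12) with a | a
  · rcases le_total (d02 + d13) (d03 + d12) with b | b
    · exact core4a c01 c02 c03 c12 c13 c23 d01 d02 d03 d12 d13 d23 F h0 h1 h2 h3 h01 h02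
        t12_0 t03_1 t03_2 t12_3 a b
    · -- d02 + d13 is largest: swap 2 and 3
      have := core4a c01 c03 c02 c13 c12 c23 d01 d03 d02 d13 d12 d23 F (by linarith) (by linarith)
        (by linarith) (by linarith) (by linarith) (by linarith) (by linarith) (by linarith)
        (by linarith) (by linarith) (by linarith) (by linarith)
      linarith
  · rcases le_total (d02 + d13) (d01 + d23) with b | b
    · -- d01 + d23 is largest: swap 1 and 3
      have := core4a c03 c02 c01 c23 c13 c12 d03 d02 d01 d23 d13 d12 F (by linarith) (by linarith)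
        (by linarith) (by linarith) (by linarith) (by linarith) (by linarith) (by linarith)
        (by linarith) (by linarith) (by linarith) (by linarith)
      linarith
    · have := core4a c01 c03 c02 c13 c12 c23 d01 d03 d02 d13 d12 d23 F (by linarith) (by linarith)
        (by linarith) (by linarith) (by linarith) (by linarith) (by linarith) (by linarith)
        (by linarith) (by linarith) (by linarith) (by linarith)
      linarith

theorem core3 (c01 c02 c12 d01 d02 d12 F : ℝ)
    (h0 : 2 * F ≤ c01 + c02) (h1 : 2 * F ≤ c01 + c12) (h2 : 2 * F ≤ c02 + c12)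
    (t0 : d12 ≤ d01 + d02) (t1 : d02 ≤ d01 + d12) (t2 : d01 ≤ d02 + d12) :
    F * (d01 + d02 + d12) ≤ c01 * d01 + c02 * d02 + c12 * d12 := by
  have p0 := mul_nonneg (sub_nonneg.2 t0) (sub_nonneg.2 h0)
  have p1 := mul_nonneg (sub_nonneg.2 t1) (sub_nonneg.2 h1)
  have p2 := mul_nonneg (sub_nonneg.2 t2) (sub_nonneg.2 h2)
  linarith

theorem pairSum_four (w : Fin 4 → Fin 4 → ℝ) : pairSum w =
    w 0 1 + w 0 2 + w 0 3 + w 1 2 + w 1 3 + w 2 3 := by
  simp [pairSum, Fin.sum_univ_four]
  ring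

theorem pairSum_three (w : Fin 3 → Fin 3 → ℝ) : pairSum w = w 0 1 + w 0 2 + w 1 2 := by
  simp [pairSum, Fin.sum_univ_three]
  try ring

theorem pairSum_two (w : Fin 2 → Fin 2 → ℝ) : pairSum w = w 0 1 := by
  simp [pairSum, Fin.sum_univ_two]

theorem four_upper (c : Fin 4 → Fin 4 → ℝ) (hc : IsCapacity c) :
    sparsestCut c ≤ glValue c := by
  apply le_glValue (exists_feasible (by norm_num))
  intro d hd h1
  rw [pairSum_four] at h1 ⊢
  have sc01 := hc.1 1 0
  have sd01 := hd.symm 1 0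
  have sc02 := hc.1 2 0
  have sd02 := hd.symm 2 0
  have sc03 := hc.1 3 0
  have sd03 := hd.symm 3 0
  have sc12 := hc.1 2 1
  have sd12 := hd.symm 2 1
  have sc13 := hc.1 3 1
  have sd13 := hd.symm 3 1
  have sc23 := hc.1 3 2
  have sd23 := hd.symm 3 2
  have hS0 : 3 * sparsestCut c ≤ c 0 1 + c 0 2 + c 0 3 := by
    have h := mul_sparsestCut_le hc (S := {0}) (by decide) (by decide)
    have e : ({0} : Finset (Fin 4))ᶜ = {1, 2, 3} := by decide
    rw [e] at h
    simp at h
    norm_num at h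
    linarith
  have hS1 : 3 * sparsestCut c ≤ c 0 1 + c 1 2 + c 1 3 := by
    have h := mul_sparsestCut_le hc (S := {1}) (by decide) (by decide)
    have e : ({1} : Finset (Fin 4))ᶜ = {0, 2, 3} := by decide
    rw [e] at h
    simp at h
    norm_num at h
    linarith
  have hS2 : 3 * sparsestCut c ≤ c 0 2 + c 1 2 + c 2 3 := by
    have h := mul_sparsestCut_le hc (S := {2}) (by decide) (by decide)
    have e : ({2} : Finset (Fin 4))ᶜ = {0, 1, 3} := by decide
    rw [e] at h
    simp at h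
    norm_num at h
    linarith
  have hS3 : 3 * sparsestCut c ≤ c 0 3 + c 1 3 + c 2 3 := by
    have h := mul_sparsestCut_le hc (S := {3}) (by decide) (by decide)
    have e : ({3} : Finset (Fin 4))ᶜ = {0, 1, 2} := by decide
    rw [e] at h
    simp at h
    norm_num at h
    linarith
  have hS01 : 4 * sparsestCut c ≤ c 0 2 + c 0 3 + c 1 2 + c 1 3 := by
    have h := mul_sparsestCut_le hc (S := {0, 1}) (by decide) (by decide)
    have e : ({0, 1} : Finset (Fin 4))ᶜ = {2, 3} := by decide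
    rw [e] at h
    simp at h
    norm_num at h
    linarith
  have hS02 : 4 * sparsestCut c ≤ c 0 1 + c 0 3 + c 1 2 + c 2 3 := by
    have h := mul_sparsestCut_le hc (S := {0, 2}) (by decide) (by decide)
    have e : ({0, 2} : Finset (Fin 4))ᶜ = {1, 3} := by decide
    rw [e] at h
    simp at h
    norm_num at h
    linarith
  have hS03 : 4 * sparsestCut c ≤ c 0 1 + c 0 2 + c 1 3 + c 2 3 := by
    have h := mul_sparsestCut_le hc (S := {0, 3}) (by decide) (by decide)
    have e : ({0, 3} : Finset (Fin 4))ᶜ = {1, 2} := by decide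
    rw [e] at h
    simp at h
    norm_num at h
    linarith
  have key := core4 (c 0 1) (c 0 2) (c 0 3) (c 1 2) (c 1 3) (c 2 3)
    (d 0 1) (d 0 2) (d 0 3) (d 1 2) (d 1 3) (d 2 3) (sparsestCut c)
    hS0
    hS1
    hS2
    hS3
    hS01
    hS02
    hS03
    (by have := hd.2 0 2 1; linarith)
    (by have := hd.2 0 3 1; linarith)
    (by have := hd.2 0 1 2; linarith)
    (by have := hd.2 0 3 2; linarith)
    (by have := hd.2 0 1 3; linarith)
    (by have := hd.2 0 2 3; linarith)
    (by have := hd.2 1 0 2; linarith)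
    (by have := hd.2 1 3 2; linarith)
    (by have := hd.2 1 0 3; linarith)
    (by have := hd.2 1 2 3; linarith)
    (by have := hd.2 2 0 3; linarith)
    (by have := hd.2 2 1 3; linarith)
  rw [h1] at key
  linarith

theorem three_upper (c : Fin 3 → Fin 3 → ℝ) (hc : IsCapacity c) :
    sparsestCut c ≤ glValue c := by
  apply le_glValue (exists_feasible (by norm_num))
  intro d hd h1
  rw [pairSum_three] at h1 ⊢
  have sc01 := hc.1 1 0
  have sd01 := hd.symm 1 0
  have sc02 := hc.1 2 0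
  have sd02 := hd.symm 2 0
  have sc12 := hc.1 2 1
  have sd12 := hd.symm 2 1
  have hS0 : 2 * sparsestCut c ≤ c 0 1 + c 0 2 := by
    have h := mul_sparsestCut_le hc (S := {0}) (by decide) (by decide)
    have e : ({0} : Finset (Fin 3))ᶜ = {1, 2} := by decide
    rw [e] at h
    simp at h
    norm_num at h
    linarith
  have hS1 : 2 * sparsestCut c ≤ c 0 1 + c 1 2 := by
    have h := mul_sparsestCut_le hc (S := {1}) (by decide) (by decide)
    have e : ({1} : Finset (Fin 3))ᶜ = {0, 2} := by decide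
    rw [e] at h
    simp at h
    norm_num at h
    linarith
  have hS2 : 2 * sparsestCut c ≤ c 0 2 + c 1 2 := by
    have h := mul_sparsestCut_le hc (S := {2}) (by decide) (by decide)
    have e : ({2} : Finset (Fin 3))ᶜ = {0, 1} := by decide
    rw [e] at h
    simp at h
    norm_num at h
    linarith
  have key := core3 (c 0 1) (c 0 2) (c 1 2)
    (d 0 1) (d 0 2) (d 1 2) (sparsestCut c)
    hS0
    hS1
    hS2
    (by have := hd.2 1 0 2; linarith)
    (by have := hd.2 0 1 2; linarith)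
    (by have := hd.2 0 2 1; linarith)
  rw [h1] at key
  linarith

theorem two_upper (c : Fin 2 → Fin 2 → ℝ) (hc : IsCapacity c) :
    sparsestCut c ≤ glValue c := by
  apply le_glValue (exists_feasible (by norm_num))
  intro d hd h1
  rw [pairSum_two] at h1 ⊢
  have sc01 := hc.1 1 0
  have sd01 := hd.symm 1 0
  have hS0 : 1 * sparsestCut c ≤ c 0 1 := by
    have h := mul_sparsestCut_le hc (S := {0}) (by decide) (by decide)
    have e : ({0} : Finset (Fin 2))ᶜ = {1} := by decide
    rw [e] at h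
    simp at h
    norm_num at h
    linarith
  rw [h1]
  linarith

/-- For `2 ≤ n ≤ 4` the Goemans-Linial relaxation is exact. -/
theorem glValue_eq_sparsestCut_of_le_four {n : ℕ} (h2 : 2 ≤ n) (h4 : n ≤ 4)
    (c : Fin n → Fin n → ℝ) (hc : IsCapacity c) : glValue c = sparsestCut c := by
  apply le_antisymm (glValue_le_sparsestCut hc h2)
  interval_cases n
  · exact two_upper c hc
  · exact three_upper c hc
  · exact four_upper c hc

end Vale.Agent.Lib.P318
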